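import Vale.Agent.P330.H241.Classes

/-!
The algorithm for `ε ≥ 1/5`: three-valued states `0`, `1` (unknown), `2`, computed by an iteration
in which a state different from `1` is never changed again; then the values `1/5`, `2/5`, `1/2`,
`3/5`, `4/5`.
-/

namespace Vale.Agent.P330

/-! ### Iterations which stop -/

theorem iterate_fixed {α : Type*} (f : α → α) (μ : α → ℕ) (h : ∀ x, f x = x ∨ μ (f x) < μ x) :
    ∀ m x, μ x ≤ m → f (f^[m] x) = f^[m] x := by
  intro m
  induction m with
  | zero =>
    intro x hx
    rcases h x with h1 | h1
    · exact h1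
    · omega
  | succ m ih =>
    intro x hx
    rcases h x with h1 | h1
    · have : ∀ k, f^[k] x = x := fun k => by
        induction k with
        | zero => rfl
        | succ k ih => rw [Function.iterate_succ_apply', ih, h1]
      rw [this, h1]
    · rw [Function.iterate_succ_apply]
      exact ih _ (by omega)

/-! ### The gate with a given output -/

/-- The gate with output `i`. -/
def gateOf (gs : List Gate) (i : ℕ) : Option Gate := gs.find? fun g => decide (g.out = i)

theorem gateOf_some {gs : List Gate} {i : ℕ} {g : Gate} (h : gateOf gs i = some g) :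
    g ∈ gs ∧ g.out = i := by
  unfold gateOf at h
  have h1 := List.find?_some h
  have h2 := List.mem_of_find?_eq_some h
  exact ⟨h2, by simpa using h1⟩

theorem gateOf_out {gs : List Gate} (hn : (gs.map Gate.out).Nodup) {g : Gate} (hg : g ∈ gs) :
    gateOf gs g.out = some g := by
  rcases h : gateOf gs g.out with _ | g'
  · unfold gateOf at h
    rw [List.find?_eq_none] at h
    have := h g hg
    simp at this
  · obtain ⟨h1, h2⟩ := gateOf_some h
    have := List.inj_on_of_nodup_map hn h1 hg h2
    rw [this]

/-! ### Monotone update of states -/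

/-- The state of a node. -/
def st (L : List ℕ) (i : ℕ) : ℕ := L.getD i 1

/-- The new state of the node `i`. -/
def upd (F : Gate → (ℕ → ℕ) → ℕ) (gs : List Gate) (L : List ℕ) (i : ℕ) : ℕ :=
  if st L i = 1 then
    match gateOf gs i with
    | none => 1
    | some g => F g (st L)
  else st L i

/-- One round. -/
def step (F : Gate → (ℕ → ℕ) → ℕ) (gs : List Gate) (n : ℕ) (L : List ℕ) : List ℕ :=
  (List.range n).map (upd F gs L)

/-- The final states. -/
def fin (F : Gate → (ℕ → ℕ) → ℕ) (gs : List Gate) (n : ℕ) : List ℕ :=
  (step F gs n)^[n] (List.replicate n 1)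

theorem step_length (F : Gate → (ℕ → ℕ) → ℕ) (gs : List Gate) (n : ℕ) (L : List ℕ) :
    (step F gs n L).length = n := by simp [step]

theorem st_step {F : Gate → (ℕ → ℕ) → ℕ} {gs : List Gate} {n : ℕ} {L : List ℕ} {i : ℕ}
    (hi : i < n) : st (step F gs n L) i = upd F gs L i := by
  unfold st step
  rw [List.getD_eq_getElem _ _ (by simpa using hi)]
  simp

theorem st_of_le {L : List ℕ} {i : ℕ} (hi : L.length ≤ i) : st L i = 1 := by
  unfold st
  rw [List.getD_eq_default _ _ hi]

theorem ext_st {L L' : List ℕ} (hl : L.length = L'.length) (h : ∀ i < L.length, st L i = st L' i) :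
    L = L' := by
  refine List.ext_getElem hl fun i h1 h2 => ?_
  have := h i h1
  unfold st at this
  rwa [List.getD_eq_getElem _ _ h1, List.getD_eq_getElem _ _ h2] at this

theorem upd_of_ne {F : Gate → (ℕ → ℕ) → ℕ} {gs : List Gate} {L : List ℕ} {i : ℕ}
    (h : st L i ≠ 1) : upd F gs L i = st L i := by
  unfold upd
  rw [if_neg h]

theorem iter_length (F : Gate → (ℕ → ℕ) → ℕ) (gs : List Gate) (n k : ℕ) :
    ((step F gs n)^[k] (List.replicate n 1)).length = n := by
  cases k with
  | zero => simp
  | succ k => rw [Function.iterate_succ_apply', step_length]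

theorem fin_fixed (F : Gate → (ℕ → ℕ) → ℕ) (gs : List Gate) (n : ℕ) :
    step F gs n (fin F gs n) = fin F gs n := by
  classical
  -- work on lists of length `n`
  let X := {L : List ℕ // L.length = n}
  let f : X → X := fun L => ⟨step F gs n L.1, step_length F gs n L.1⟩
  let μ : X → ℕ := fun L => ((Finset.range n).filter fun i => st L.1 i = 1).card
  have hμ : ∀ L : X, f L = L ∨ μ (f L) < μ L := by
    intro L
    by_cases h : f L = L
    · exact Or.inl h
    · right
      have h1 : ∃ i < n, upd F gs L.1 i ≠ st L.1 i := by
        by_contra hc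
        push Not at hc
        apply h
        apply Subtype.ext
        refine ext_st (by rw [step_length, L.2]) fun i hi => ?_
        have hi' : i < n := by rwa [step_length] at hi
        show st (step F gs n L.1) i = st L.1 i
        rw [st_step hi', hc i hi']
      obtain ⟨i, hi, h2⟩ := h1
      have h3 : st L.1 i = 1 := by
        by_contra h4
        exact h2 (upd_of_ne h4)
      refine Finset.card_lt_card ?_
      rw [Finset.ssubset_iff_of_subset]
      · refine ⟨i, ?_, ?_⟩
        · simp [hi, h3]
        · simp only [Finset.mem_filter, not_and]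
          intro _
          show ¬ st (step F gs n L.1) i = 1
          rw [st_step hi]
          rw [h3] at h2
          exact h2
      · intro j hj
        simp only [Finset.mem_filter, Finset.mem_range] at hj ⊢
        refine ⟨hj.1, ?_⟩
        by_contra h4
        have h5 : st (step F gs n L.1) j = 1 := hj.2
        rw [st_step hj.1, upd_of_ne h4] at h5
        exact h4 h5
  have hk : ∀ k, (f^[k] ⟨List.replicate n 1, by simp⟩).1 =
      (step F gs n)^[k] (List.replicate n 1) := by
    intro k
    induction k with
    | zero => rfl
    | succ k ih => rw [Function.iterate_succ_apply', Function.iterate_succ_apply', ← ih]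
  have h1 := iterate_fixed f μ hμ n ⟨List.replicate n 1, by simp⟩ (by
    refine (Finset.card_filter_le _ _).trans ?_
    simp)
  have h2 := congrArg Subtype.val h1
  have h3 := hk n
  unfold fin
  rw [← h3]
  exact h2

/-- `s'` is obtained from `s` by changing some states `1`. -/
def Raise (s s' : ℕ → ℕ) : Prop := ∀ i, s' i = s i ∨ s i = 1

theorem raise_step {F : Gate → (ℕ → ℕ) → ℕ} {gs : List Gate} {n : ℕ} {L : List ℕ}
    (hL : L.length = n) : Raise (st L) (st (step F gs n L)) := by
  intro i
  by_cases hi : i < n
  · by_cases h : st L i = 1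
    · exact Or.inr h
    · left
      rw [st_step hi, upd_of_ne h]
  · right
    exact st_of_le (by omega)

/-- Invariants of the iteration: a property `Q` of gates and states, which holds as soon as the
output gets a state different from `1`, and is not destroyed later, holds at the end. -/
theorem fin_inv {F : Gate → (ℕ → ℕ) → ℕ} {gs : List Gate} {n : ℕ} {B : ℕ → Prop} (hB : B 1)
    (hn : (gs.map Gate.out).Nodup) (hout : ∀ g ∈ gs, g.out < n)
    (hF : ∀ g ∈ gs, ∀ s : ℕ → ℕ, (∀ i, B (s i)) → B (F g s))
    {Q : Gate → (ℕ → ℕ) → Prop}
    (hQ1 : ∀ g ∈ gs, ∀ s s' : ℕ → ℕ, (∀ i, B (s i)) → (∀ i, B (s' i)) → Raise s s' →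
      s g.out ≠ 1 → Q g s → Q g s')
    (hQ2 : ∀ g ∈ gs, ∀ s s' : ℕ → ℕ, (∀ i, B (s i)) → (∀ i, B (s' i)) → Raise s s' →
      s g.out = 1 → s' g.out = F g s → F g s ≠ 1 → Q g s') :
    (∀ i, B (st (fin F gs n) i)) ∧
      ∀ g ∈ gs, (st (fin F gs n) g.out ≠ 1 → Q g (st (fin F gs n))) ∧
        (st (fin F gs n) g.out = 1 → F g (st (fin F gs n)) = 1) := by
  have key : ∀ k, (∀ i, B (st ((step F gs n)^[k] (List.replicate n 1)) i)) ∧
      ∀ g ∈ gs, st ((step F gs n)^[k] (List.replicate n 1)) g.out ≠ 1 →
        Q g (st ((step F gs n)^[k] (List.replicate n 1))) := by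
    intro k
    induction k with
    | zero =>
      have h0 : ∀ i, st (List.replicate n 1) i = 1 := by
        intro i
        unfold st
        by_cases hi : i < n
        · rw [List.getD_eq_getElem _ _ (by simpa using hi)]
          simp
        · rw [List.getD_eq_default _ _ (by simpa using hi)]
      refine ⟨fun i => ?_, fun g _ h => ?_⟩
      · show B (st (List.replicate n 1) i)
        rw [h0]
        exact hB
      · exact absurd (h0 g.out) h
    | succ k ih =>
      obtain ⟨ih1, ih2⟩ := ih
      have hlen := iter_length F gs n k
      rw [Function.iterate_succ_apply']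
      set L := (step F gs n)^[k] (List.replicate n 1) with hLdef
      have hr := raise_step (F := F) (gs := gs) hlen
      have h2 : ∀ i, B (st (step F gs n L) i) := by
        intro i
        by_cases hi : i < n
        · rw [st_step hi]
          unfold upd
          split_ifs with h
          · rcases h3 : gateOf gs i with _ | g
            · exact hB
            · exact hF g (gateOf_some h3).1 _ ih1
          · exact ih1 i
        · rw [st_of_le (by rw [step_length]; omega)]
          exact hB
      refine ⟨h2, fun g hg hne => ?_⟩
      by_cases h3 : st L g.out = 1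
      · have h4 : st (step F gs n L) g.out = F g (st L) := by
          rw [st_step (hout g hg)]
          unfold upd
          rw [if_pos h3, gateOf_out hn hg]
        exact hQ2 g hg _ _ ih1 h2 hr h3 h4 (by rwa [h4] at hne)
      · exact hQ1 g hg _ _ ih1 h2 hr h3 (ih2 g hg h3)
  obtain ⟨k1, k2⟩ := key n
  refine ⟨k1, fun g hg => ⟨k2 g hg, fun h => ?_⟩⟩
  have h1 := fin_fixed F gs n
  have h2 : st (step F gs n (fin F gs n)) g.out = st (fin F gs n) g.out := by rw [h1]
  rw [st_step (hout g hg)] at h2
  unfold upd at h2
  rw [if_pos h, gateOf_out hn hg, h] at h2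
  exact h2

/-- Nodes without a gate keep the state `1`. -/
theorem fin_none {F : Gate → (ℕ → ℕ) → ℕ} {gs : List Gate} {n i : ℕ} (hi : i < n)
    (h : gateOf gs i = none) : st (fin F gs n) i = 1 := by
  have key : ∀ k, st ((step F gs n)^[k] (List.replicate n 1)) i = 1 := by
    intro k
    induction k with
    | zero =>
      show st (List.replicate n 1) i = 1
      unfold st
      rw [List.getD_eq_getElem _ _ (by simpa using hi)]
      simp
    | succ k ih =>
      rw [Function.iterate_succ_apply', st_step hi]
      unfold upd
      rw [if_pos ih, h]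
  exact key _

/-! ### The states for `ε ≥ 1/5` -/

/-- The state forced by the states of the inputs. -/
def thr (g : Gate) (s : ℕ → ℕ) : ℕ :=
  match g with
  | .const α _ => if α ≤ 2 / 5 then 0 else if 3 / 5 ≤ α then 2 else 1
  | .scale α a _ => if α < 2 / 3 then 0 else s a
  | .copy a _ => s a
  | .add _ _ _ => 2
  | .sub _ _ _ => 0
  | .less a b _ => if s a < s b then 2 else if s b < s a then 0 else 1
  | .not a _ => 2 - s a
  | .or a b _ => max (s a) (s b)
  | .and a b _ => min (s a) (s b)

/-- The invariant. -/
def OK (g : Gate) (s : ℕ → ℕ) : Prop :=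
  match g with
  | .less a b z => (s z = 2 ∧ (s a = 0 ∨ s b = 2)) ∨ (s z = 0 ∧ (s a = 2 ∨ s b = 0))
  | g => thr g s = s g.out

theorem thr_le {g : Gate} {s : ℕ → ℕ} (hs : ∀ i, s i ≤ 2) : thr g s ≤ 2 := by
  cases g with
  | const α z => simp only [thr]; split_ifs <;> omega
  | scale α a z => simp only [thr]; split_ifs; · omega
                   exact hs a
  | copy a z => exact hs a
  | add a b z => exact le_rfl
  | sub a b z => simp [thr]
  | less a b z => simp only [thr]; split_ifs <;> omega
  | not a z => simp only [thr]; omega
  | or a b z => simp only [thr]; exact max_le (hs a) (hs b)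
  | and a b z => simp only [thr]; exact (min_le_left _ _).trans (hs a)

theorem ok_raise {g : Gate} {s s' : ℕ → ℕ} (hs : ∀ i, s i ≤ 2) (hs' : ∀ i, s' i ≤ 2)
    (hr : Raise s s') (hne : s g.out ≠ 1) (h : OK g s) : OK g s' := by
  have hz : s' g.out = s g.out := (hr g.out).resolve_right hne
  cases g with
  | const α z =>
    simp only [OK, thr] at h ⊢
    rw [hz, h]
  | scale α a z =>
    simp only [OK, thr] at h ⊢
    have := hr a
    simp only [Gate.out] at *
    split_ifs at h ⊢ with h1
    · rw [hz, h]
    · omega
  | copy a z =>
    simp only [OK, thr] at h ⊢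
    have := hr a
    simp only [Gate.out] at *
    omega
  | add a b z =>
    simp only [OK, thr] at h ⊢
    rw [hz, h]
  | sub a b z =>
    simp only [OK, thr] at h ⊢
    rw [hz, h]
  | less a b z =>
    simp only [OK] at h ⊢
    have ha := hr a
    have hb := hr b
    simp only [Gate.out] at *
    omega
  | not a z =>
    simp only [OK, thr] at h ⊢
    have ha := hr a
    simp only [Gate.out] at *
    omega
  | or a b z =>
    simp only [OK, thr] at h ⊢
    have ha := hr a
    have hb := hr b
    have ha2 := hs' a
    have hb2 := hs' b
    simp only [Gate.out] at *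
    omega
  | and a b z =>
    simp only [OK, thr] at h ⊢
    have ha := hr a
    have hb := hr b
    have ha2 := hs a
    have hb2 := hs b
    have ha2 := hs' a
    have hb2 := hs' b
    simp only [Gate.out] at *
    omega

theorem ok_new {g : Gate} {s s' : ℕ → ℕ} (hs : ∀ i, s i ≤ 2) (hs' : ∀ i, s' i ≤ 2)
    (hr : Raise s s') (hz : s' g.out = thr g s) (hne : thr g s ≠ 1) : OK g s' := by
  cases g with
  | const α z =>
    simp only [OK, thr, Gate.out] at hz hne ⊢
    rw [hz]
  | scale α a z =>
    simp only [OK, thr, Gate.out] at hz hne ⊢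
    have := hr a
    split_ifs at hz hne ⊢ with h1
    · omega
    · omega
  | copy a z =>
    simp only [OK, thr, Gate.out] at hz hne ⊢
    have := hr a
    omega
  | add a b z =>
    simp only [OK, thr, Gate.out] at hz hne ⊢
    rw [hz]
  | sub a b z =>
    simp only [OK, thr, Gate.out] at hz hne ⊢
    rw [hz]
  | less a b z =>
    simp only [OK, thr, Gate.out] at hz hne ⊢
    have ha := hr a
    have hb := hr b
    have ha2 := hs a
    have hb2 := hs b
    split_ifs at hz hne with h1 h2
    · omega
    · omega
    · omega
  | not a z =>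
    simp only [OK, thr, Gate.out] at hz hne ⊢
    have ha := hr a
    omega
  | or a b z =>
    simp only [OK, thr, Gate.out] at hz hne ⊢
    have ha := hr a
    have hb := hr b
    have ha2 := hs' a
    have hb2 := hs' b
    have ha3 := hs a
    have hb3 := hs b
    omega
  | and a b z =>
    simp only [OK, thr, Gate.out] at hz hne ⊢
    have ha := hr a
    have hb := hr b
    have ha2 := hs' a
    have hb2 := hs' b
    have ha3 := hs a
    have hb3 := hs b
    omega

end Vale.Agent.P330
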