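import Vale.Agent.P330.H241.Defs

/-!
Classes of gates of generalized circuits.
-/

namespace Vale.Agent.P330

/-- Constant and Not gates. -/
def Gate.isConstNot : Gate → Bool
  | .const _ _ => true
  | .not _ _ => true
  | _ => false

/-- Scale, Add, Subtract and Less gates. -/
def Gate.isArith : Gate → Bool
  | .scale _ _ _ => true
  | .add _ _ _ => true
  | .sub _ _ _ => true
  | .less _ _ _ => true
  | _ => false

/-- Subtract, Less and Not gates. -/
def Gate.isNonMono : Gate → Bool
  | .sub _ _ _ => true
  | .less _ _ _ => true
  | .not _ _ => true
  | _ => false

/-- Gates with an input node whose number is not smaller than the number of the output node. -/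
def Gate.isBackward (g : Gate) : Bool := g.ins.any fun a => decide (g.out ≤ a)

/-- Scale, Add and Subtract gates. -/
def Gate.isArith3 : Gate → Bool
  | .scale _ _ _ => true
  | .add _ _ _ => true
  | .sub _ _ _ => true
  | _ => false

/-- The number of gates of a class. -/
def GenCircuit.count (G : GenCircuit) (P : Gate → Bool) : ℕ := (G.gates.filter P).length

/-- The smallest of four numbers: of the Constant and Not gates; of the Scale, Add, Subtract and
Less gates; of the Subtract, Less and Not gates; of the backward gates. -/
def GenCircuit.bad (G : GenCircuit) : ℕ :=
  min (min (G.count Gate.isConstNot) (G.count Gate.isArith))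
    (min (G.count Gate.isNonMono) (G.count Gate.isBackward))

end Vale.Agent.P330
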