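import Vale.Agent.P330.H241.Grid
import Vale.Agent.Lib.PolyTime.Lists2
import Vale.Agent.Lib.PolyTime.NatArith2
import Vale.Agent.Lib.PolyTime.OfTM2

/-!
The codes of the objects of problem P330 in the typed polynomial time library, and the polynomial
time computability of the basic operations on gates and circuits.
-/

namespace Vale.Agent.P330

open Vale.Agent.Lib.PolyTime

/-! ### Codes -/

theorem pr_eq_pairW : ∀ u v : List Bool, pr u v = pairW u v
  | [], v => rfl
  | b :: u, v => by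
    have := pr_eq_pairW u v
    simp only [pr, pairW, List.flatMap_cons] at this ⊢
    rw [this]
    rfl

theorem encList_eq_listW {α : Type} [Enc α] : ∀ l : List α, encList l = listW enc l
  | [] => rfl
  | a :: l => by
    rw [encList, listW, pr_eq_pairW, encList_eq_listW l]

instance : Enc ℚ := ⟨ratW⟩
instance : Enc Gate := ⟨gateW⟩
instance : Enc GenCircuit := ⟨circuitW⟩
instance : Enc EndOfLine := ⟨eolW⟩

theorem enc_rat (r : ℚ) : enc r = ratW r := rfl
theorem enc_gate (g : Gate) : enc g = gateW g := rfl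
theorem enc_circuit (G : GenCircuit) : enc G = circuitW G := rfl
theorem enc_eol (I : EndOfLine) : enc I = eolW I := rfl

theorem enc_listRat (l : List ℚ) : enc l = listW ratW l := encList_eq_listW l

theorem enc_listGate (l : List Gate) : enc l = listW gateW l := encList_eq_listW l

/-- `PolyTime` in terms of the library. -/
theorem polyTime_iff {α β : Type} {ca : α → List Bool} {cb : β → List Bool} {f : α → β} :
    PolyTime ca cb f ↔ ∃ g : List Bool → List Bool, FP ∅ g ∧ ∀ a, g (ca a) = cb (f a) := by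
  unfold PolyTime
  constructor
  · rintro ⟨g, h1, h2⟩
    exact ⟨g, OfTM2.fp_iff_tm2.2 h1, h2⟩
  · rintro ⟨g, h1, h2⟩
    exact ⟨g, OfTM2.fp_iff_tm2.1 h1, h2⟩

theorem polyTime_of_PT {α β : Type} [Enc α] [Enc β] {ca : α → List Bool} {cb : β → List Bool}
    {f : α → β} (hf : PT ∅ f) (ha : ∀ a : α, enc a = ca a) (hb : ∀ b : β, enc b = cb b) :
    PolyTime ca cb f := by
  obtain ⟨g, h1, h2⟩ := hf
  exact polyTime_iff.2 ⟨g, h1, fun a => by rw [← ha, h2, hb]⟩

variable {A : Set Word} {α β γ : Type*} [Enc α] [Enc β] [Enc γ]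

/-! ### Rational numbers -/

theorem PT_ratRaw : PT A (fun r : ℚ => (decide (r < 0), r.num.natAbs, r.den)) :=
  ⟨_, FP.id, fun r => by
    show enc r = _
    rw [enc_rat, enc_pair, enc_pair, pr_eq_pairW, pr_eq_pairW]
    rfl⟩

theorem PT_neg {f : α → ℚ} (hf : PT A f) : PT A (fun a => decide (f a < 0)) :=
  (PT_ratRaw.comp hf).fst

theorem PT_num {f : α → ℚ} (hf : PT A f) : PT A (fun a => (f a).num.natAbs) :=
  (PT_ratRaw.comp hf).snd.fst

theorem PT_den {f : α → ℚ} (hf : PT A f) : PT A (fun a => (f a).den) :=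
  (PT_ratRaw.comp hf).snd.snd

theorem PT_fl {f : α → ℚ} {k : α → ℕ} (hf : PT A f) (hk : PT A k) :
    PT A (fun a => fl (f a) (k a)) :=
  PT.div (PT.mul (PT_num hf) hk) (PT_den hf)

theorem rat_le_iff (r : ℚ) (a b : ℕ) (hb : 0 < b) :
    r ≤ (a : ℚ) / b ↔ (r < 0 ∨ r.num.natAbs * b ≤ a * r.den) := by
  have hb' : (0 : ℚ) < b := by exact_mod_cast hb
  have hd : (0 : ℚ) < r.den := by exact_mod_cast r.den_pos
  have ha : (0 : ℚ) ≤ (a : ℚ) / b := by positivity
  by_cases h : r < 0
  · simp only [h, true_or, iff_true]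
    exact (h.le).trans ha
  · simp only [h, false_or]
    push Not at h
    have h1 : (r.num.natAbs : ℚ) = r * r.den := by
      have h2 : ((r.num.natAbs : ℤ) : ℚ) = (r.num : ℚ) := by
        rw [Int.natAbs_of_nonneg (Rat.num_nonneg.2 h)]
      rw [← Int.cast_natCast, h2, Rat.mul_den_eq_num]
    rw [le_div_iff₀ hb', ← Nat.cast_le (α := ℚ)]
    push_cast
    rw [h1]
    constructor
    · intro h3
      nlinarith
    · intro h3
      have h4 : (r * b) * r.den ≤ a * r.den := by linarith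
      exact le_of_mul_le_mul_right h4 hd

theorem rat_lt_iff (r : ℚ) (a b : ℕ) (ha : 0 < a) (hb : 0 < b) :
    r < (a : ℚ) / b ↔ (r < 0 ∨ r.num.natAbs * b < a * r.den) := by
  have hb' : (0 : ℚ) < b := by exact_mod_cast hb
  have ha' : (0 : ℚ) < a := by exact_mod_cast ha
  have hd : (0 : ℚ) < r.den := by exact_mod_cast r.den_pos
  have ha : (0 : ℚ) < (a : ℚ) / b := by positivity
  by_cases h : r < 0
  · simp only [h, true_or, iff_true]
    exact h.trans ha
  · simp only [h, false_or]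
    push Not at h
    have h1 : (r.num.natAbs : ℚ) = r * r.den := by
      have h2 : ((r.num.natAbs : ℤ) : ℚ) = (r.num : ℚ) := by
        rw [Int.natAbs_of_nonneg (Rat.num_nonneg.2 h)]
      rw [← Int.cast_natCast, h2, Rat.mul_den_eq_num]
    rw [lt_div_iff₀ hb', ← Nat.cast_lt (α := ℚ)]
    push_cast
    rw [h1]
    constructor
    · intro h3
      nlinarith
    · intro h3
      have h4 : (r * b) * r.den < a * r.den := by linarith
      exact lt_of_mul_lt_mul_right h4 hd.le

theorem PT_ratLe {f : α → ℚ} (hf : PT A f) (a b : ℕ) (hb : 0 < b) (c : ℚ) (hc : c = (a : ℚ) / b) :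
    PT A (fun x => decide (f x ≤ c)) :=
  ((PT_neg hf).or (PT.le (PT.mul (PT_num hf) (PT.const b))
    (PT.mul (PT.const a) (PT_den hf)))).congr fun x => by
      rw [← Bool.decide_or]
      rw [decide_eq_decide, hc, rat_le_iff _ _ _ hb]

theorem PT_ratLt {f : α → ℚ} (hf : PT A f) (a b : ℕ) (ha : 0 < a) (hb : 0 < b) (c : ℚ)
    (hc : c = (a : ℚ) / b) :
    PT A (fun x => decide (f x < c)) :=
  ((PT_neg hf).or (PT.lt (PT.mul (PT_num hf) (PT.const b))
    (PT.mul (PT.const a) (PT_den hf)))).congr fun x => by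
      rw [← Bool.decide_or]
      rw [decide_eq_decide, hc, rat_lt_iff _ _ _ ha hb]

/-! ### Gates -/

/-- The contents of a gate. -/
def Gate.data : Gate → ℕ × ℚ × ℕ × ℕ × ℕ
  | .const α z => (0, α, 0, 0, z)
  | .scale α a z => (1, α, a, 0, z)
  | .copy a z => (2, 0, a, 0, z)
  | .add a b z => (3, 0, a, b, z)
  | .sub a b z => (4, 0, a, b, z)
  | .less a b z => (5, 0, a, b, z)
  | .not a z => (6, 0, a, 0, z)
  | .or a b z => (7, 0, a, b, z)
  | .and a b z => (8, 0, a, b, z)

theorem PT_data {f : α → Gate} (hf : PT A f) : PT A (fun a => (f a).data) := by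
  have h : PT A Gate.data := ⟨_, FP.id, fun g => by
    show gateW g = _
    cases g <;> simp only [Gate.data, enc_pair, pr_eq_pairW, enc_rat, enc_nat, gateW]⟩
  exact h.comp hf

theorem PT_tag {f : α → Gate} (hf : PT A f) : PT A (fun a => (f a).data.1) := (PT_data hf).fst
theorem PT_par {f : α → Gate} (hf : PT A f) : PT A (fun a => (f a).data.2.1) := (PT_data hf).snd.fst
theorem PT_in1 {f : α → Gate} (hf : PT A f) : PT A (fun a => (f a).data.2.2.1) :=
  (PT_data hf).snd.snd.fst
theorem PT_in2 {f : α → Gate} (hf : PT A f) : PT A (fun a => (f a).data.2.2.2.1) :=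
  (PT_data hf).snd.snd.snd.fst

theorem PT_out {f : α → Gate} (hf : PT A f) : PT A (fun a => (f a).out) :=
  (PT_data hf).snd.snd.snd.snd.congr fun a => by cases f a <;> rfl

/-- Case distinction on the kind of a gate. -/
theorem PT_gateCase {g : α → Gate} (hg : PT A g) {F : Gate → α → β}
    {f0 f1 : ℚ → ℕ → ℕ → ℕ → α → β} {f2 f3 f4 f5 f6 f7 f8 : ℕ → ℕ → ℕ → α → β}
    (h0 : PT A (fun a => f0 (g a).data.2.1 (g a).data.2.2.1 (g a).data.2.2.2.1 (g a).out a))
    (h1 : PT A (fun a => f1 (g a).data.2.1 (g a).data.2.2.1 (g a).data.2.2.2.1 (g a).out a))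
    (h2 : PT A (fun a => f2 (g a).data.2.2.1 (g a).data.2.2.2.1 (g a).out a))
    (h3 : PT A (fun a => f3 (g a).data.2.2.1 (g a).data.2.2.2.1 (g a).out a))
    (h4 : PT A (fun a => f4 (g a).data.2.2.1 (g a).data.2.2.2.1 (g a).out a))
    (h5 : PT A (fun a => f5 (g a).data.2.2.1 (g a).data.2.2.2.1 (g a).out a))
    (h6 : PT A (fun a => f6 (g a).data.2.2.1 (g a).data.2.2.2.1 (g a).out a))
    (h7 : PT A (fun a => f7 (g a).data.2.2.1 (g a).data.2.2.2.1 (g a).out a))
    (h8 : PT A (fun a => f8 (g a).data.2.2.1 (g a).data.2.2.2.1 (g a).out a))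
    (e0 : ∀ a α z, F (.const α z) a = f0 α 0 0 z a)
    (e1 : ∀ a α i z, F (.scale α i z) a = f1 α i 0 z a)
    (e2 : ∀ a i z, F (.copy i z) a = f2 i 0 z a)
    (e3 : ∀ a i j z, F (.add i j z) a = f3 i j z a)
    (e4 : ∀ a i j z, F (.sub i j z) a = f4 i j z a)
    (e5 : ∀ a i j z, F (.less i j z) a = f5 i j z a)
    (e6 : ∀ a i z, F (.not i z) a = f6 i 0 z a)
    (e7 : ∀ a i j z, F (.or i j z) a = f7 i j z a)
    (e8 : ∀ a i j z, F (.and i j z) a = f8 i j z a) :
    PT A (fun a => F (g a) a) := by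
  have ht := PT_tag hg
  refine (PT.ite (PT.eqNat ht (PT.const 0)) h0 <| PT.ite (PT.eqNat ht (PT.const 1)) h1 <|
    PT.ite (PT.eqNat ht (PT.const 2)) h2 <| PT.ite (PT.eqNat ht (PT.const 3)) h3 <|
    PT.ite (PT.eqNat ht (PT.const 4)) h4 <| PT.ite (PT.eqNat ht (PT.const 5)) h5 <|
    PT.ite (PT.eqNat ht (PT.const 6)) h6 <| PT.ite (PT.eqNat ht (PT.const 7)) h7 h8).congr
    fun a => ?_
  cases h : g a <;> simp only [Gate.data, Gate.out, e0, e1, e2, e3, e4, e5, e6, e7, e8] <;> norm_num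

/-! ### Circuits -/

theorem PT_ctx : PT A (fun G : GenCircuit => (Un.mk G.nodes, G.gates)) :=
  ⟨_, FP.id, fun G => by
    show circuitW G = _
    rw [enc_pair, pr_eq_pairW, enc_un, enc_listGate]
    rfl⟩

theorem PT_nodes {f : α → GenCircuit} (hf : PT A f) : PT A (fun a => (f a).nodes) :=
  PT.unVal (PT_ctx.comp hf).fst

theorem PBd_nodes {f : α → GenCircuit} (hf : PT A f) : PBd (fun a => (f a).nodes) :=
  PBd.unVal (PT_ctx.comp hf).fst

theorem PT_gates {f : α → GenCircuit} (hf : PT A f) : PT A (fun a => (f a).gates) :=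
  (PT_ctx.comp hf).snd

theorem PT_gateOf {l : α → List Gate} {i : α → ℕ} (hl : PT A l) (hi : PT A i) :
    PT A (fun a => gateOf (l a) (i a)) := by
  unfold gateOf
  exact PT.find? (f := fun a g => decide (g.out = i a)) hl
    (PT.eqNat (PT_out PT.snd') (hi.comp PT.fst'))

end Vale.Agent.P330
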