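import Mathlib

/-!
Definitions for problem P330: End-of-Line, generalized circuits, acceptable assignments,
polynomial time, and the reductions asked for by the PCP-for-PPAD conjecture.
-/

namespace Vale.Agent.P330

/-! ### Codes by binary words, polynomial time -/

/-- The code of a pair of words: every bit of `u` is preceded by `true`, then come `false` and
`v`. -/
def pairW (u v : List Bool) : List Bool := (u.flatMap fun b => [true, b]) ++ false :: v

/-- The code of a list, given the codes of its elements. -/
def listW {α : Type} (c : α → List Bool) : List α → List Bool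
  | [] => []
  | a :: l => pairW (c a) (listW c l)

/-- The code of a rational number: sign, numerator and denominator in binary. -/
def ratW (r : ℚ) : List Bool :=
  pairW [decide (r < 0)] (pairW (Nat.bits r.num.natAbs) (Nat.bits r.den))

/-- `f` is computable in polynomial time, for the given codes: some function on binary words, which
is computed in polynomial time by a multi-stack Turing machine of Mathlib, maps the code of every
`a` to the code of `f a`. -/
def PolyTime {α β : Type} (ca : α → List Bool) (cb : β → List Bool) (f : α → β) : Prop :=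
  ∃ g : List Bool → List Bool,
    Nonempty (Turing.TM2ComputableInPolyTime (fun w : List Bool => w) (fun w : List Bool => w) g) ∧
    ∀ a, g (ca a) = cb (f a)

/-! ### Boolean circuits and End-of-Line -/

/-- Gates of Boolean circuits; the arguments are numbers of wires. -/
inductive BGate
  | and (i j : ℕ)
  | or (i j : ℕ)
  | not (i : ℕ)

/-- The value of a gate, given the values of the wires. -/
def BGate.eval (w : List Bool) : BGate → Bool
  | .and i j => w.getD i false && w.getD j false
  | .or i j => w.getD i false || w.getD j false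
  | .not i => !w.getD i false

/-- All wires read by the gate have a number less than `k`. -/
def BGate.Below (k : ℕ) : BGate → Prop
  | .and i j => i < k ∧ j < k
  | .or i j => i < k ∧ j < k
  | .not i => i < k

/-- A Boolean circuit: the list of its gates and the list of its output wires. With `n` inputs,
the wires `0, …, n - 1` carry the input and the wire `n + k` carries the value of the gate number
`k`. -/
structure BoolCircuit where
  /-- the gates -/
  gates : List BGate
  /-- the output wires -/
  outs : List ℕ

/-- The output of a Boolean circuit on an input. -/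
def BoolCircuit.eval (C : BoolCircuit) (x : List Bool) : List Bool :=
  C.outs.map fun i => (C.gates.foldl (fun w g => w ++ [g.eval w]) x).getD i false

/-- `C` is a circuit with `n` inputs and `n` outputs: every gate reads only earlier wires, and the
outputs are existing wires. -/
def BoolCircuit.IsCircuit (C : BoolCircuit) (n : ℕ) : Prop :=
  C.outs.length = n ∧ (∀ i ∈ C.outs, i < n + C.gates.length) ∧
    ∀ k, ∀ h : k < C.gates.length, C.gates[k].Below (n + k)

/-- An instance of End-of-Line. -/
structure EndOfLine where
  /-- the length of the strings -/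
  n : ℕ
  /-- the successor circuit -/
  S : BoolCircuit
  /-- the predecessor circuit -/
  P : BoolCircuit
  one_le : 1 ≤ n
  circuit_S : S.IsCircuit n
  circuit_P : P.IsCircuit n
  pred_zero : P.eval (List.replicate n false) = List.replicate n false
  succ_zero : S.eval (List.replicate n false) ≠ List.replicate n false
  pred_succ_zero : P.eval (S.eval (List.replicate n false)) = List.replicate n false

/-- `v` is a solution of the instance: a string different from `0ⁿ` with `P (S v) ≠ v` or
`S (P v) ≠ v`. -/
def EndOfLine.IsSolution (I : EndOfLine) (v : List Bool) : Prop :=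
  v.length = I.n ∧ v ≠ List.replicate I.n false ∧
    (I.P.eval (I.S.eval v) ≠ v ∨ I.S.eval (I.P.eval v) ≠ v)

/-- The code of a Boolean gate. -/
def bgateW : BGate → List Bool
  | .and i j => pairW (Nat.bits 0) (pairW (Nat.bits i) (Nat.bits j))
  | .or i j => pairW (Nat.bits 1) (pairW (Nat.bits i) (Nat.bits j))
  | .not i => pairW (Nat.bits 2) (pairW (Nat.bits i) (Nat.bits 0))

/-- The code of a Boolean circuit. -/
def boolCircuitW (C : BoolCircuit) : List Bool := pairW (listW bgateW C.gates) (listW Nat.bits C.outs)

/-- The code of an instance of End-of-Line. -/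
def eolW (I : EndOfLine) : List Bool :=
  pairW (Nat.bits I.n) (pairW (boolCircuitW I.S) (boolCircuitW I.P))

/-- End-of-Line (and hence every problem in PPAD) is solved in polynomial time. -/
def EndOfLineInFP : Prop :=
  ∃ f : EndOfLine → List Bool, PolyTime eolW (fun v => v) f ∧ ∀ I : EndOfLine, I.IsSolution (f I)

/-! ### Generalized circuits -/

/-- Gates of generalized circuits; `a`, `b` are input nodes, `z` is the output node. -/
inductive Gate
  | const (α : ℚ) (z : ℕ)
  | scale (α : ℚ) (a z : ℕ)
  | copy (a z : ℕ)
  | add (a b z : ℕ)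
  | sub (a b z : ℕ)
  | less (a b z : ℕ)
  | not (a z : ℕ)
  | or (a b z : ℕ)
  | and (a b z : ℕ)

/-- The output node. -/
def Gate.out : Gate → ℕ
  | .const _ z => z
  | .scale _ _ z => z
  | .copy _ z => z
  | .add _ _ z => z
  | .sub _ _ z => z
  | .less _ _ z => z
  | .not _ z => z
  | .or _ _ z => z
  | .and _ _ z => z

/-- The input nodes. -/
def Gate.ins : Gate → List ℕ
  | .const _ _ => []
  | .scale _ a _ => [a]
  | .copy a _ => [a]
  | .add a b _ => [a, b]
  | .sub a b _ => [a, b]
  | .less a b _ => [a, b]
  | .not a _ => [a]
  | .or a b _ => [a, b]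
  | .and a b _ => [a, b]

/-- The rational parameter, if there is one. -/
def Gate.params : Gate → List ℚ
  | .const α _ => [α]
  | .scale α _ _ => [α]
  | _ => []

/-- The gate is `ε`-satisfied by `x`. -/
def Gate.Sat (ε : ℝ) (x : ℕ → ℝ) : Gate → Prop
  | .const α z => |x z - α| ≤ ε
  | .scale α a z => |x z - α * x a| ≤ ε
  | .copy a z => |x z - x a| ≤ ε
  | .add a b z => |x z - min (x a + x b) 1| ≤ ε
  | .sub a b z => |x z - max (x a - x b) 0| ≤ ε
  | .less a b z => (x a < x b - ε → 1 - ε ≤ x z) ∧ (x b + ε < x a → x z ≤ ε)
  | .not a z => (x a ≤ ε → 1 - ε ≤ x z) ∧ (1 - ε ≤ x a → x z ≤ ε)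
  | .or a b z => (1 - ε ≤ x a ∨ 1 - ε ≤ x b → 1 - ε ≤ x z) ∧ (x a ≤ ε ∧ x b ≤ ε → x z ≤ ε)
  | .and a b z => (1 - ε ≤ x a ∧ 1 - ε ≤ x b → 1 - ε ≤ x z) ∧ (x a ≤ ε ∨ x b ≤ ε → x z ≤ ε)

/-- A generalized circuit with the nodes `0, …, nodes - 1`: a nonempty list of gates with
parameters in `[0, 1]`, every node being the output of at most one gate. -/
structure GenCircuit where
  /-- the number of nodes -/
  nodes : ℕ
  /-- the gates -/
  gates : List Gate
  gates_ne : gates ≠ []
  out_lt : ∀ g ∈ gates, g.out < nodes
  ins_lt : ∀ g ∈ gates, ∀ a ∈ g.ins, a < nodes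
  out_nodup : (gates.map Gate.out).Nodup
  params_mem : ∀ g ∈ gates, ∀ α ∈ g.params, 0 ≤ α ∧ α ≤ 1

/-- The code of a gate: its kind, its parameter, its input nodes and its output node. -/
def gateW : Gate → List Bool
  | .const α z => pairW (Nat.bits 0) (pairW (ratW α) (pairW (Nat.bits 0) (pairW (Nat.bits 0) (Nat.bits z))))
  | .scale α a z => pairW (Nat.bits 1) (pairW (ratW α) (pairW (Nat.bits a) (pairW (Nat.bits 0) (Nat.bits z))))
  | .copy a z => pairW (Nat.bits 2) (pairW (ratW 0) (pairW (Nat.bits a) (pairW (Nat.bits 0) (Nat.bits z))))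
  | .add a b z => pairW (Nat.bits 3) (pairW (ratW 0) (pairW (Nat.bits a) (pairW (Nat.bits b) (Nat.bits z))))
  | .sub a b z => pairW (Nat.bits 4) (pairW (ratW 0) (pairW (Nat.bits a) (pairW (Nat.bits b) (Nat.bits z))))
  | .less a b z => pairW (Nat.bits 5) (pairW (ratW 0) (pairW (Nat.bits a) (pairW (Nat.bits b) (Nat.bits z))))
  | .not a z => pairW (Nat.bits 6) (pairW (ratW 0) (pairW (Nat.bits a) (pairW (Nat.bits 0) (Nat.bits z))))
  | .or a b z => pairW (Nat.bits 7) (pairW (ratW 0) (pairW (Nat.bits a) (pairW (Nat.bits b) (Nat.bits z))))
  | .and a b z => pairW (Nat.bits 8) (pairW (ratW 0) (pairW (Nat.bits a) (pairW (Nat.bits b) (Nat.bits z))))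

/-- The code of a generalized circuit (the set of nodes in unary, then the gates). -/
def circuitW (G : GenCircuit) : List Bool :=
  pairW (List.replicate G.nodes true) (listW gateW G.gates)

/-- The value of the node `v` in the assignment `x` (the list of the values of all nodes). -/
def val (x : List ℚ) (v : ℕ) : ℝ := (x.getD v 0 : ℚ)

/-- `x` is an assignment of values in `[0, 1]` to the nodes of `G`. -/
def IsAssignment (G : GenCircuit) (x : List ℚ) : Prop :=
  x.length = G.nodes ∧ ∀ r ∈ x, 0 ≤ r ∧ r ≤ 1

/-- The number of `ε`-satisfied gates. -/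
noncomputable def numSat (ε : ℝ) (G : GenCircuit) (x : List ℚ) : ℕ :=
  {g : Gate | g ∈ G.gates ∧ g.Sat ε (val x)}.ncard

/-- `x` is an acceptable assignment of `G`: it has rational values in `[0, 1]`, its code has length
at most `p M`, where `M` is the length of the code of `G`, and it `ε`-satisfies at least the
fraction `1 - δ` of the gates. -/
def Acceptable (ε δ : ℝ) (p : Polynomial ℕ) (G : GenCircuit) (x : List ℚ) : Prop :=
  IsAssignment G x ∧ (listW ratW x).length ≤ p.eval (circuitW G).length ∧
    (1 - δ) * G.gates.length ≤ numSat ε G x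

/-! ### The reductions of the PCP-for-PPAD conjecture -/

/-- The polynomial time algorithms `R`, `D` are as in the conjecture, with the constants `ε`, `δ`
and the polynomial `p`, apart from the size of `R I`: `R I` has an acceptable assignment, and `D`
maps every acceptable assignment of `R I` to a solution of `I`. -/
def IsReduction (ε δ : ℝ) (p : Polynomial ℕ) (R : EndOfLine → GenCircuit)
    (D : EndOfLine × List ℚ → List Bool) : Prop :=
  PolyTime eolW circuitW R ∧
  PolyTime (fun q : EndOfLine × List ℚ => pairW (eolW q.1) (listW ratW q.2)) (fun v => v) D ∧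
  ∀ I : EndOfLine, (∃ x, Acceptable ε δ p (R I) x) ∧
    ∀ x, Acceptable ε δ p (R I) x → I.IsSolution (D (I, x))

/-- The weaker form of the conjecture for the constants `ε`, `δ`, `p`: `R I` has polynomial
size (which is automatic). -/
def PolySizePCP (ε δ : ℝ) (p : Polynomial ℕ) : Prop := ∃ R D, IsReduction ε δ p R D

/-- The conjecture for the constants `ε`, `δ`, `p`: moreover the code of `R I` has length
`N (log N) ^ O(1)`, where `N` is the length of the code of `I`. -/
def PCPforPPAD (ε δ : ℝ) (p : Polynomial ℕ) : Prop :=
  ∃ R D, IsReduction ε δ p R D ∧ ∃ k : ℕ, ∀ I : EndOfLine,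
    (circuitW (R I)).length ≤ k * (eolW I).length * Nat.log 2 (eolW I).length ^ k

end Vale.Agent.P330
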