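import Vale.Agent.P330.H241.Val

/-!
Assignments which satisfy all gates outside one of four classes, for arbitrary `ε > 0`.
-/

namespace Vale.Agent.P330

/-! ### Evaluation on a grid -/

/-- `⌊α K⌋`. -/
def fl (α : ℚ) (K : ℕ) : ℕ := α.num.natAbs * K / α.den

theorem fl_le {α : ℚ} (h0 : 0 ≤ α) (h1 : α ≤ 1) (K : ℕ) : fl α K ≤ K := by
  unfold fl
  have h2 : α.num ≤ α.den := by
    have := Rat.num_div_den α
    have h3 : (0 : ℚ) < α.den := by exact_mod_cast α.den_pos
    have h4 : (α.num : ℚ) ≤ α.den := by
      have h5 : (α.num : ℚ) = α * α.den := by field_simp at this ⊢; linarith [Rat.mul_den_eq_num α]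
      rw [h5]
      nlinarith
    exact_mod_cast h4
  have h3 : 0 ≤ α.num := Rat.num_nonneg.2 h0
  have h4 : α.num.natAbs ≤ α.den := by omega
  calc α.num.natAbs * K / α.den ≤ α.den * K / α.den := Nat.div_le_div_right (Nat.mul_le_mul_right _ h4)
    _ = K := Nat.mul_div_cancel_left _ α.den_pos

theorem fl_spec {α : ℚ} (h0 : 0 ≤ α) (K : ℕ) :
    (fl α K : ℝ) ≤ α * K ∧ (α * K : ℝ) < fl α K + 1 := by
  have hd : (0 : ℝ) < α.den := by exact_mod_cast α.den_pos
  have h1 : (α : ℝ) * α.den = α.num.natAbs := by
    have h2 : α * α.den = α.num := Rat.mul_den_eq_num α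
    have h3 : (α.num.natAbs : ℤ) = α.num := Int.natAbs_of_nonneg (Rat.num_nonneg.2 h0)
    have h5 : ((α * α.den : ℚ) : ℝ) = ((α.num : ℚ) : ℝ) := by rw [h2]
    rw [Rat.cast_mul, Rat.cast_natCast, Rat.cast_intCast] at h5
    rw [h5, ← Int.cast_natCast, h3]
  unfold fl
  constructor
  · have h2 : α.num.natAbs * K / α.den * α.den ≤ α.num.natAbs * K := Nat.div_mul_le_self _ _
    have h3 : ((α.num.natAbs * K / α.den : ℕ) : ℝ) * α.den ≤ α.num.natAbs * K := by exact_mod_cast h2
    rw [← h1] at h3
    have h4 : ((α.num.natAbs * K / α.den : ℕ) : ℝ) * α.den ≤ (α * K) * α.den := by linarith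
    exact le_of_mul_le_mul_right h4 hd
  · have h2 : α.num.natAbs * K < (α.num.natAbs * K / α.den + 1) * α.den := by
      have := Nat.lt_div_mul_add (a := α.num.natAbs * K) α.den_pos
      linarith
    have h3 : (α.num.natAbs * K : ℝ) < ((α.num.natAbs * K / α.den : ℕ) + 1 : ℝ) * α.den := by
      exact_mod_cast h2
    rw [← h1] at h3
    have h4 : (α * K : ℝ) * α.den < ((α.num.natAbs * K / α.den : ℕ) + 1 : ℝ) * α.den := by linarith
    exact lt_of_mul_lt_mul_right h4 hd.le

/-- Evaluation of a gate on the grid `{0, 1/K, …, 1}` (states are numerators). -/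
def evalG (K : ℕ) (g : Gate) (s : ℕ → ℕ) : ℕ :=
  match g with
  | .const α _ => fl α K
  | .scale α a _ => fl α (s a)
  | .copy a _ => s a
  | .add a b _ => min (s a + s b) K
  | .sub a b _ => s a - s b
  | .less a b _ => if s a < s b then K else 0
  | .not a _ => K - s a
  | .or a b _ => max (s a) (s b)
  | .and a b _ => min (s a) (s b)

theorem evalG_le {G : GenCircuit} {g : Gate} (hg : g ∈ G.gates) {K : ℕ} {s : ℕ → ℕ}
    (hs : ∀ i, s i ≤ K) : evalG K g s ≤ K := by
  have hpar := G.params_mem g hg
  cases g with
  | const α z =>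
    obtain ⟨h0, h1⟩ := hpar α (by simp [Gate.params])
    exact fl_le h0 h1 K
  | scale α a z =>
    obtain ⟨h0, h1⟩ := hpar α (by simp [Gate.params])
    exact (fl_le h0 h1 _).trans (hs a)
  | copy a z => exact hs a
  | add a b z => exact min_le_right _ _
  | sub a b z => exact (Nat.sub_le _ _).trans (hs a)
  | less a b z => simp only [evalG]; split_ifs <;> omega
  | not a z => exact Nat.sub_le _ _
  | or a b z => exact max_le (hs a) (hs b)
  | and a b z => exact (min_le_left _ _).trans (hs a)

/-- A gate whose output is the result of the evaluation on a fine grid is satisfied. -/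
theorem sat_evalG {G : GenCircuit} {g : Gate} (hg : g ∈ G.gates) {K : ℕ} (hK : 0 < K) {ε : ℝ}
    (hε : 1 / ε ≤ K) (h0 : 0 < ε) {s : ℕ → ℕ} (hs : ∀ i, s i ≤ K) {x : ℕ → ℝ}
    (hx : ∀ i < G.nodes, x i = s i / K) (h : s g.out = evalG K g s) : g.Sat ε x := by
  have hpar := G.params_mem g hg
  have hK' : (0 : ℝ) < K := by exact_mod_cast hK
  have h1K : 1 / (K : ℝ) ≤ ε := by
    rw [div_le_iff₀ h0] at hε
    rw [div_le_iff₀ hK']
    linarith
  have ho := hx _ (G.out_lt g hg)
  have hi : ∀ a ∈ g.ins, x a = s a / K := fun a ha => hx a (G.ins_lt g hg a ha)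
  have hle : ∀ a, (s a : ℝ) / K ≤ 1 := fun a => by
    rw [div_le_one hK']
    exact_mod_cast hs a
  cases g with
  | const α z =>
    obtain ⟨a0, a1⟩ := hpar α (by simp [Gate.params])
    obtain ⟨f1, f2⟩ := fl_spec a0 K
    simp only [Gate.out, evalG] at ho h
    simp only [Gate.Sat]
    rw [ho, h, abs_le]
    have e1 : (fl α K : ℝ) / K ≤ α := by
      rw [div_le_iff₀ hK']; exact f1
    have e2 : (α : ℝ) ≤ (fl α K : ℝ) / K + 1 / K := by
      rw [← add_div, le_div_iff₀ hK']; exact f2.le
    constructor <;> linarith
  | scale α a z =>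
    obtain ⟨a0, a1⟩ := hpar α (by simp [Gate.params])
    obtain ⟨f1, f2⟩ := fl_spec a0 (s a)
    simp only [Gate.out, evalG] at ho h
    simp only [Gate.Sat]
    rw [ho, h, hi a (by simp [Gate.ins]), abs_le]
    have e1 : (fl α (s a) : ℝ) / K ≤ α * (s a / K) := by
      rw [div_le_iff₀ hK', mul_assoc, div_mul_cancel₀ _ hK'.ne']; exact f1
    have e2 : (α : ℝ) * (s a / K) ≤ (fl α (s a) : ℝ) / K + 1 / K := by
      rw [← add_div, le_div_iff₀ hK', mul_assoc, div_mul_cancel₀ _ hK'.ne']; exact f2.le
    constructor <;> linarith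
  | copy a z =>
    simp only [Gate.out, evalG] at ho h
    simp only [Gate.Sat]
    rw [ho, h, hi a (by simp [Gate.ins])]
    simp [h0.le]
  | add a b z =>
    simp only [Gate.out, evalG] at ho h
    simp only [Gate.Sat]
    rw [ho, h, hi a (by simp [Gate.ins]), hi b (by simp [Gate.ins]), ← add_div]
    have : ((min (s a + s b) K : ℕ) : ℝ) / K = min (((s a : ℝ) + s b) / K) 1 := by
      rcases le_total (s a + s b) K with h2 | h2
      · rw [min_eq_left h2, min_eq_left]
        · push_cast; rfl
        · rw [div_le_one hK']; exact_mod_cast h2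
      · rw [min_eq_right h2, min_eq_right, div_self hK'.ne']
        rw [one_le_div hK']; exact_mod_cast h2
    rw [this]
    simp [h0.le]
  | sub a b z =>
    simp only [Gate.out, evalG] at ho h
    simp only [Gate.Sat]
    rw [ho, h, hi a (by simp [Gate.ins]), hi b (by simp [Gate.ins]), ← sub_div]
    have : ((s a - s b : ℕ) : ℝ) / K = max (((s a : ℝ) - s b) / K) 0 := by
      rcases le_total (s a) (s b) with h2 | h2
      · rw [Nat.sub_eq_zero_of_le h2, max_eq_right]
        · simp
        · have : (s a : ℝ) ≤ s b := by exact_mod_cast h2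
          exact div_nonpos_of_nonpos_of_nonneg (by linarith) hK'.le
      · have h3 : (s b : ℝ) ≤ s a := by exact_mod_cast h2
        rw [Nat.cast_sub h2, max_eq_left]
        exact div_nonneg (by linarith) hK'.le
    rw [this]
    simp [h0.le]
  | less a b z =>
    simp only [Gate.out, evalG] at ho h
    simp only [Gate.Sat]
    rw [ho, h, hi a (by simp [Gate.ins]), hi b (by simp [Gate.ins])]
    constructor
    · intro h2
      have h3 : s a < s b := by
        have : (s a : ℝ) / K < s b / K := by linarith
        have := (div_lt_div_iff_of_pos_right hK').1 this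
        exact_mod_cast this
      rw [if_pos h3, div_self hK'.ne']
      linarith
    · intro h2
      have h3 : ¬ s a < s b := by
        have : (s b : ℝ) / K < s a / K := by linarith
        have := (div_lt_div_iff_of_pos_right hK').1 this
        have : s b < s a := by exact_mod_cast this
        omega
      rw [if_neg h3]
      simp [h0.le]
  | not a z =>
    simp only [Gate.out, evalG] at ho h
    simp only [Gate.Sat]
    rw [ho, h, hi a (by simp [Gate.ins]), Nat.cast_sub (hs a), sub_div, div_self hK'.ne']
    constructor <;> intro h2 <;> linarith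
  | or a b z =>
    simp only [Gate.out, evalG] at ho h
    simp only [Gate.Sat]
    rw [ho, h, hi a (by simp [Gate.ins]), hi b (by simp [Gate.ins])]
    have : ((max (s a) (s b) : ℕ) : ℝ) / K = max ((s a : ℝ) / K) (s b / K) := by
      rcases le_total (s a) (s b) with h2 | h2
      · rw [max_eq_right h2, max_eq_right]
        exact (div_le_div_iff_of_pos_right hK').2 (by exact_mod_cast h2)
      · rw [max_eq_left h2, max_eq_left]
        exact (div_le_div_iff_of_pos_right hK').2 (by exact_mod_cast h2)
    rw [this]
    constructor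
    · rintro (h2 | h2)
      · exact le_max_of_le_left h2
      · exact le_max_of_le_right h2
    · rintro ⟨h2, h3⟩
      exact max_le h2 h3
  | and a b z =>
    simp only [Gate.out, evalG] at ho h
    simp only [Gate.Sat]
    rw [ho, h, hi a (by simp [Gate.ins]), hi b (by simp [Gate.ins])]
    have : ((min (s a) (s b) : ℕ) : ℝ) / K = min ((s a : ℝ) / K) (s b / K) := by
      rcases le_total (s a) (s b) with h2 | h2
      · rw [min_eq_left h2, min_eq_left]
        exact (div_le_div_iff_of_pos_right hK').2 (by exact_mod_cast h2)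
      · rw [min_eq_right h2, min_eq_right]
        exact (div_le_div_iff_of_pos_right hK').2 (by exact_mod_cast h2)
    rw [this]
    constructor
    · rintro ⟨h2, h3⟩
      exact le_min h2 h3
    · rintro (h2 | h2)
      · exact min_le_of_left_le h2
      · exact min_le_of_right_le h2

/-! ### Synchronous iteration from `0` -/

/-- The entry number `i`, `0` outside the list. -/
def sz (L : List ℕ) (i : ℕ) : ℕ := L.getD i 0

/-- One round. -/
def stepM (F : Gate → (ℕ → ℕ) → ℕ) (gs : List Gate) (n : ℕ) (L : List ℕ) : List ℕ :=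
  (List.range n).map fun i =>
    match gateOf gs i with
    | none => 0
    | some g => F g (sz L)

/-- `N` rounds. -/
def finM (F : Gate → (ℕ → ℕ) → ℕ) (gs : List Gate) (n N : ℕ) : List ℕ :=
  (stepM F gs n)^[N] (List.replicate n 0)

/-- The right-hand side of a round. -/
def rhs (F : Gate → (ℕ → ℕ) → ℕ) (gs : List Gate) (s : ℕ → ℕ) (i : ℕ) : ℕ :=
  match gateOf gs i with
  | none => 0
  | some g => F g s

theorem stepM_length (F : Gate → (ℕ → ℕ) → ℕ) (gs : List Gate) (n : ℕ) (L : List ℕ) :
    (stepM F gs n L).length = n := by simp [stepM]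

theorem sz_stepM {F : Gate → (ℕ → ℕ) → ℕ} {gs : List Gate} {n : ℕ} {L : List ℕ} {i : ℕ}
    (hi : i < n) : sz (stepM F gs n L) i = rhs F gs (sz L) i := by
  unfold sz stepM
  rw [List.getD_eq_getElem _ _ (by simpa using hi)]
  simp only [List.getElem_map, List.getElem_range]
  rfl

theorem sz_of_le {L : List ℕ} {i : ℕ} (hi : L.length ≤ i) : sz L i = 0 := by
  unfold sz
  rw [List.getD_eq_default _ _ hi]

theorem ext_sz {L L' : List ℕ} (hl : L.length = L'.length) (h : ∀ i < L.length, sz L i = sz L' i) :
    L = L' := by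
  refine List.ext_getElem hl fun i h1 h2 => ?_
  have := h i h1
  unfold sz at this
  rwa [List.getD_eq_getElem _ _ h1, List.getD_eq_getElem _ _ h2] at this

theorem finM_length (F : Gate → (ℕ → ℕ) → ℕ) (gs : List Gate) (n N : ℕ) :
    (finM F gs n N).length = n := by
  unfold finM
  cases N with
  | zero => simp
  | succ k => rw [Function.iterate_succ_apply', stepM_length]

theorem sz_replicate (n i : ℕ) : sz (List.replicate n 0) i = 0 := by
  unfold sz
  by_cases hi : i < n
  · rw [List.getD_eq_getElem _ _ (by simpa using hi)]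
    simp
  · rw [List.getD_eq_default _ _ (by simpa using hi)]

theorem finM_le {F : Gate → (ℕ → ℕ) → ℕ} {gs : List Gate} {n K : ℕ}
    (hF : ∀ g ∈ gs, ∀ s : ℕ → ℕ, (∀ i, s i ≤ K) → F g s ≤ K) (N : ℕ) :
    ∀ i, sz (finM F gs n N) i ≤ K := by
  unfold finM
  induction N with
  | zero =>
    intro i
    show sz (List.replicate n 0) i ≤ K
    rw [sz_replicate]
    exact Nat.zero_le _
  | succ k ih =>
    intro i
    rw [Function.iterate_succ_apply']
    by_cases hi : i < n
    · rw [sz_stepM hi]
      unfold rhs
      rcases h : gateOf gs i with _ | g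
      · exact Nat.zero_le _
      · exact hF g (gateOf_some h).1 _ ih
    · rw [sz_of_le (by rw [stepM_length]; omega)]
      exact Nat.zero_le _

/-- Monotone iterations stop. -/
theorem finM_fixed_mono {F : Gate → (ℕ → ℕ) → ℕ} {gs : List Gate} {n K : ℕ}
    (hF : ∀ g ∈ gs, ∀ s : ℕ → ℕ, (∀ i, s i ≤ K) → F g s ≤ K)
    (hmono : ∀ g ∈ gs, ∀ s s' : ℕ → ℕ, (∀ i, s i ≤ s' i) → F g s ≤ F g s') :
    stepM F gs n (finM F gs n (n * K)) = finM F gs n (n * K) := by
  classical
  let X := {L : List ℕ // L.length = n ∧ (∀ i, sz L i ≤ K) ∧ ∀ i, sz L i ≤ sz (stepM F gs n L) i}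
  have hstep : ∀ L : X, (stepM F gs n L.1).length = n ∧ (∀ i, sz (stepM F gs n L.1) i ≤ K) ∧
      ∀ i, sz (stepM F gs n L.1) i ≤ sz (stepM F gs n (stepM F gs n L.1)) i := by
    intro L
    refine ⟨stepM_length _ _ _ _, fun i => ?_, fun i => ?_⟩
    · by_cases hi : i < n
      · rw [sz_stepM hi]
        unfold rhs
        rcases h : gateOf gs i with _ | g
        · exact Nat.zero_le _
        · exact hF g (gateOf_some h).1 _ L.2.2.1
      · rw [sz_of_le (by rw [stepM_length]; omega)]
        exact Nat.zero_le _
    · by_cases hi : i < n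
      · rw [sz_stepM hi, sz_stepM hi]
        unfold rhs
        rcases h : gateOf gs i with _ | g
        · exact le_rfl
        · exact hmono g (gateOf_some h).1 _ _ L.2.2.2
      · rw [sz_of_le (by rw [stepM_length]; omega)]
        exact Nat.zero_le _
  let f : X → X := fun L => ⟨stepM F gs n L.1, hstep L⟩
  let μ : X → ℕ := fun L => ∑ i ∈ Finset.range n, (K - sz L.1 i)
  have hμ : ∀ L : X, f L = L ∨ μ (f L) < μ L := by
    intro L
    by_cases h : f L = L
    · exact Or.inl h
    · right
      have h1 : ∃ i < n, sz (stepM F gs n L.1) i ≠ sz L.1 i := by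
        by_contra hc
        push Not at hc
        apply h
        apply Subtype.ext
        refine ext_sz (by rw [stepM_length, L.2.1]) fun i hi => ?_
        exact hc i (by rwa [stepM_length] at hi)
      obtain ⟨i, hi, h2⟩ := h1
      refine Finset.sum_lt_sum (fun j _ => ?_) ⟨i, Finset.mem_range.2 hi, ?_⟩
      · exact Nat.sub_le_sub_left (L.2.2.2 j) K
      · have h3 := L.2.2.2 i
        have h4 := (hstep L).2.1 i
        show K - sz (stepM F gs n L.1) i < K - sz L.1 i
        omega
  have h0 : (List.replicate n 0).length = n ∧ (∀ i, sz (List.replicate n 0) i ≤ K) ∧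
      ∀ i, sz (List.replicate n 0) i ≤ sz (stepM F gs n (List.replicate n 0)) i := by
    refine ⟨by simp, fun i => ?_, fun i => ?_⟩ <;> rw [sz_replicate] <;> exact Nat.zero_le _
  have hk : ∀ k, (f^[k] ⟨List.replicate n 0, h0⟩).1 =
      (stepM F gs n)^[k] (List.replicate n 0) := by
    intro k
    induction k with
    | zero => rfl
    | succ k ih => rw [Function.iterate_succ_apply', Function.iterate_succ_apply', ← ih]
  have h1 := iterate_fixed f μ hμ (n * K) ⟨List.replicate n 0, h0⟩ (by
    refine (Finset.sum_le_card_nsmul _ _ K fun i _ => Nat.sub_le _ _).trans ?_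
    simp)
  have h2 := congrArg Subtype.val h1
  unfold finM
  rw [← hk]
  exact h2

/-- Acyclic iterations stop. -/
theorem finM_fixed_acyclic {F : Gate → (ℕ → ℕ) → ℕ} {gs : List Gate} {n : ℕ}
    (hF : ∀ g ∈ gs, ∀ s s' : ℕ → ℕ, (∀ j < g.out, s j = s' j) → F g s = F g s') :
    stepM F gs n (finM F gs n n) = finM F gs n n := by
  have key : ∀ i < n, ∀ k k', i < k → i < k' →
      sz ((stepM F gs n)^[k] (List.replicate n 0)) i =
        sz ((stepM F gs n)^[k'] (List.replicate n 0)) i := by
    intro i
    induction i using Nat.strong_induction_on with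
    | _ i ih =>
      intro hi k k' hk hk'
      obtain ⟨k, rfl⟩ : ∃ j, k = j + 1 := ⟨k - 1, by omega⟩
      obtain ⟨k', rfl⟩ : ∃ j, k' = j + 1 := ⟨k' - 1, by omega⟩
      rw [Function.iterate_succ_apply', Function.iterate_succ_apply', sz_stepM hi, sz_stepM hi]
      unfold rhs
      rcases h : gateOf gs i with _ | g
      · rfl
      · obtain ⟨h1, h2⟩ := gateOf_some h
        refine hF g h1 _ _ fun j hj => ih j (by omega) (by omega) k k' (by omega) (by omega)
  refine ext_sz (by rw [stepM_length, finM_length]) fun i hi => ?_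
  rw [stepM_length] at hi
  have := key i hi (n + 1) n (by omega) hi
  rwa [Function.iterate_succ_apply'] at this

theorem finM_eq {F : Gate → (ℕ → ℕ) → ℕ} {G : GenCircuit} {N : ℕ}
    (h : stepM F G.gates G.nodes (finM F G.gates G.nodes N) = finM F G.gates G.nodes N)
    {g : Gate} (hg : g ∈ G.gates) :
    sz (finM F G.gates G.nodes N) g.out = F g (sz (finM F G.gates G.nodes N)) := by
  have h1 : sz (stepM F G.gates G.nodes (finM F G.gates G.nodes N)) g.out =
      sz (finM F G.gates G.nodes N) g.out := by rw [h]
  rw [sz_stepM (G.out_lt g hg)] at h1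
  unfold rhs at h1
  rw [gateOf_out G.out_nodup hg] at h1
  exact h1.symm

/-- The assignment with values on the grid. -/
def gridAssign (K : ℕ) (L : List ℕ) : List ℚ := L.map fun k : ℕ => (k : ℚ) / K

theorem val_gridAssign {K : ℕ} {L : List ℕ} {i : ℕ} (hi : i < L.length) :
    val (gridAssign K L) i = sz L i / K := by
  unfold val gridAssign sz
  rw [List.getD_eq_getElem _ _ (by simpa using hi), List.getD_eq_getElem _ _ hi]
  simp

/-! ### Monotone gates -/

/-- Non-monotone gates are ignored. -/
def FM (K : ℕ) (g : Gate) (s : ℕ → ℕ) : ℕ := if g.isNonMono then 0 else evalG K g s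

/-- The assignment satisfying all monotone gates. -/
def algM (K : ℕ) (G : GenCircuit) : List ℚ :=
  gridAssign K (finM (FM K) G.gates G.nodes (G.nodes * K))

theorem fl_mono {α : ℚ} {m n : ℕ} (h : m ≤ n) : fl α m ≤ fl α n :=
  Nat.div_le_div_right (Nat.mul_le_mul_left _ h)

theorem FM_le {G : GenCircuit} {g : Gate} (hg : g ∈ G.gates) {K : ℕ} {s : ℕ → ℕ}
    (hs : ∀ i, s i ≤ K) : FM K g s ≤ K := by
  unfold FM
  split_ifs
  · exact Nat.zero_le _
  · exact evalG_le hg hs

theorem FM_mono {K : ℕ} {g : Gate} {s s' : ℕ → ℕ} (h : ∀ i, s i ≤ s' i) :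
    FM K g s ≤ FM K g s' := by
  unfold FM
  cases g with
  | const α z => simp [Gate.isNonMono, evalG]
  | scale α a z => simp only [Gate.isNonMono, evalG]; exact fl_mono (h a)
  | copy a z => simp only [Gate.isNonMono, evalG]; exact h a
  | add a b z =>
    simp only [Gate.isNonMono, evalG]
    exact min_le_min (add_le_add (h a) (h b)) le_rfl
  | sub a b z => simp [Gate.isNonMono]
  | less a b z => simp [Gate.isNonMono]
  | not a z => simp [Gate.isNonMono]
  | or a b z => simp only [Gate.isNonMono, evalG]; exact max_le_max (h a) (h b)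
  | and a b z => simp only [Gate.isNonMono, evalG]; exact min_le_min (h a) (h b)

theorem sat_algM {ε : ℝ} (h0 : 0 < ε) {K : ℕ} (hK : 0 < K) (hε : 1 / ε ≤ K) (G : GenCircuit) :
    ∀ g ∈ G.gates, g.isNonMono = false → g.Sat ε (val (algM K G)) := by
  intro g hg hm
  have hfix : stepM (FM K) G.gates G.nodes (finM (FM K) G.gates G.nodes (G.nodes * K)) =
      finM (FM K) G.gates G.nodes (G.nodes * K) :=
    finM_fixed_mono (fun g hg s hs => FM_le hg hs) fun g _ s s' h => FM_mono h
  have hle := finM_le (F := FM K) (gs := G.gates) (n := G.nodes) (K := K)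
    (fun g hg s hs => FM_le hg hs) (G.nodes * K)
  refine sat_evalG hg hK hε h0 hle (fun i hi => ?_) ?_
  · exact val_gridAssign (by rwa [finM_length])
  · rw [finM_eq hfix hg]
    unfold FM
    rw [hm]
    simp

/-! ### Forward gates -/

/-- Backward gates are ignored. -/
def FF (K : ℕ) (g : Gate) (s : ℕ → ℕ) : ℕ := if g.isBackward then 0 else evalG K g s

/-- The assignment satisfying all forward gates. -/
def algF (K : ℕ) (G : GenCircuit) : List ℚ :=
  gridAssign K (finM (FF K) G.gates G.nodes G.nodes)

theorem evalG_congr {K : ℕ} {g : Gate} {s s' : ℕ → ℕ} (h : ∀ a ∈ g.ins, s a = s' a) :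
    evalG K g s = evalG K g s' := by
  cases g with
  | const α z => rfl
  | scale α a z => simp only [evalG]; rw [h a (by simp [Gate.ins])]
  | copy a z => simp only [evalG]; rw [h a (by simp [Gate.ins])]
  | add a b z => simp only [evalG]; rw [h a (by simp [Gate.ins]), h b (by simp [Gate.ins])]
  | sub a b z => simp only [evalG]; rw [h a (by simp [Gate.ins]), h b (by simp [Gate.ins])]
  | less a b z => simp only [evalG]; rw [h a (by simp [Gate.ins]), h b (by simp [Gate.ins])]
  | not a z => simp only [evalG]; rw [h a (by simp [Gate.ins])]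
  | or a b z => simp only [evalG]; rw [h a (by simp [Gate.ins]), h b (by simp [Gate.ins])]
  | and a b z => simp only [evalG]; rw [h a (by simp [Gate.ins]), h b (by simp [Gate.ins])]

theorem sat_algF {ε : ℝ} (h0 : 0 < ε) {K : ℕ} (hK : 0 < K) (hε : 1 / ε ≤ K) (G : GenCircuit) :
    ∀ g ∈ G.gates, g.isBackward = false → g.Sat ε (val (algF K G)) := by
  intro g hg hm
  have hfix : stepM (FF K) G.gates G.nodes (finM (FF K) G.gates G.nodes G.nodes) =
      finM (FF K) G.gates G.nodes G.nodes := by
    refine finM_fixed_acyclic fun g _ s s' h => ?_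
    unfold FF
    by_cases hb : g.isBackward = true
    · rw [if_pos hb, if_pos hb]
    · rw [if_neg hb, if_neg hb]
      refine evalG_congr fun a ha => h a ?_
      unfold Gate.isBackward at hb
      by_contra hc
      exact hb (List.any_eq_true.2 ⟨a, ha, by simpa using not_lt.1 hc⟩)
  have hle := finM_le (F := FF K) (gs := G.gates) (n := G.nodes) (K := K)
    (fun g hg s hs => by
      unfold FF
      split_ifs
      · exact Nat.zero_le _
      · exact evalG_le hg hs) G.nodes
  refine sat_evalG hg hK hε h0 hle (fun i hi => ?_) ?_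
  · exact val_gridAssign (by rwa [finM_length])
  · rw [finM_eq hfix hg]
    unfold FF
    rw [hm]
    simp

/-! ### The zero assignment -/

/-- The zero assignment satisfies all gates except Constant and Not gates. -/
theorem sat_zero {ε : ℝ} (h0 : 0 < ε) (h1 : ε < 1) (G : GenCircuit) :
    ∀ g ∈ G.gates, g.isConstNot = false → g.Sat ε (val (List.replicate G.nodes 0)) := by
  intro g _ hm
  have hv : ∀ i, val (List.replicate G.nodes 0) i = 0 := by
    intro i
    unfold val
    by_cases hi : i < G.nodes
    · rw [List.getD_eq_getElem _ _ (by simpa using hi)]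
      simp
    · rw [List.getD_eq_default _ _ (by simpa using hi)]
      simp
  cases g with
  | const α z => simp [Gate.isConstNot] at hm
  | scale α a z => simp [Gate.Sat, hv, h0.le]
  | copy a z => simp [Gate.Sat, hv, h0.le]
  | add a b z => simp [Gate.Sat, hv, h0.le]
  | sub a b z => simp [Gate.Sat, hv, h0.le]
  | less a b z =>
    simp only [Gate.Sat, hv]
    constructor <;> intro h <;> linarith
  | not a z => simp [Gate.isConstNot] at hm
  | or a b z =>
    simp only [Gate.Sat, hv]
    constructor
    · rintro (h | h) <;> linarith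
    · intro h; linarith
  | and a b z =>
    simp only [Gate.Sat, hv]
    constructor
    · intro h; linarith [h.1]
    · intro h; linarith

/-! ### Three-valued evaluation of Constant, Copy, Not, Or and And gates -/

/-- The class of a state: `1` unknown, `0` value less than `1/2`, `2` otherwise. -/
def cls (K t : ℕ) : ℕ := if t = 1 then 1 else if K ≤ 2 * (t - 2) then 2 else 0

/-- The state for a class. -/
def ofCls (K c : ℕ) : ℕ := if c = 0 then 2 else if c = 2 then K + 2 else 1

/-- The state forced by the states of the inputs; the state `k + 2` stands for the value `k / K`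
and the state `1` for an unknown value. -/
def FK (K : ℕ) (g : Gate) (s : ℕ → ℕ) : ℕ :=
  match g with
  | .const α _ => fl α K + 2
  | .copy a _ => s a
  | .not a _ => ofCls K (2 - cls K (s a))
  | .or a b _ => ofCls K (max (cls K (s a)) (cls K (s b)))
  | .and a b _ => ofCls K (min (cls K (s a)) (cls K (s b)))
  | _ => 1

/-- The value for a state. -/
def valK (K t : ℕ) : ℚ := if t = 1 then 1 / 2 else ((t - 2 : ℕ) : ℚ) / K

/-- The assignment satisfying all Constant, Copy, Not, Or and And gates. -/
def algK (K : ℕ) (G : GenCircuit) : List ℚ := (fin (FK K) G.gates G.nodes).map (valK K)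

theorem cls_raise {K : ℕ} {s s' : ℕ → ℕ} (hr : Raise s s') {a : ℕ} (h : cls K (s a) ≠ 1) :
    cls K (s' a) = cls K (s a) := by
  rcases hr a with h1 | h1
  · rw [h1]
  · exact absurd (by simp [cls, h1]) h

theorem cls_le (K t : ℕ) : cls K t ≤ 2 := by
  unfold cls
  split_ifs <;> omega

theorem FK_raise {K : ℕ} {g : Gate} {s s' : ℕ → ℕ} (hr : Raise s s') (h : FK K g s ≠ 1) :
    FK K g s' = FK K g s := by
  cases g with
  | const α z => rfl
  | scale α a z => simp [FK] at h
  | copy a z =>
    simp only [FK] at h ⊢
    exact (hr a).resolve_right h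
  | add a b z => simp [FK] at h
  | sub a b z => simp [FK] at h
  | less a b z => simp [FK] at h
  | not a z =>
    simp only [FK] at h ⊢
    have h1 : cls K (s a) ≠ 1 := by
      intro h1
      rw [h1] at h
      exact h (by simp [ofCls])
    rw [cls_raise hr h1]
  | or a b z =>
    simp only [FK] at h ⊢
    congr 1
    have ha := cls_le K (s a)
    have hb := cls_le K (s b)
    have ha' := cls_le K (s' a)
    have hb' := cls_le K (s' b)
    by_cases h1 : max (cls K (s a)) (cls K (s b)) = 1
    · rw [h1] at h
      exact absurd (by simp [ofCls]) h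
    · by_cases h2 : cls K (s a) = 1
      · have h3 : cls K (s b) = 2 := by omega
        have h4 := cls_raise (K := K) hr (a := b) (by omega)
        omega
      · have h4 := cls_raise (K := K) hr h2
        by_cases h3 : cls K (s b) = 1
        · omega
        · have h5 := cls_raise (K := K) hr h3
          omega
  | and a b z =>
    simp only [FK] at h ⊢
    congr 1
    have ha := cls_le K (s a)
    have hb := cls_le K (s b)
    have ha' := cls_le K (s' a)
    have hb' := cls_le K (s' b)
    by_cases h1 : min (cls K (s a)) (cls K (s b)) = 1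
    · rw [h1] at h
      exact absurd (by simp [ofCls]) h
    · by_cases h2 : cls K (s a) = 1
      · have h3 : cls K (s b) = 0 := by omega
        have h4 := cls_raise (K := K) hr (a := b) (by omega)
        omega
      · have h4 := cls_raise (K := K) hr h2
        by_cases h3 : cls K (s b) = 1
        · omega
        · have h5 := cls_raise (K := K) hr h3
          omega

theorem fin_FK_eq (K : ℕ) (G : GenCircuit) : ∀ g ∈ G.gates,
    st (fin (FK K) G.gates G.nodes) g.out = FK K g (st (fin (FK K) G.gates G.nodes)) := by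
  obtain ⟨-, h2⟩ := fin_inv (F := FK K) (Q := fun g s => s g.out = FK K g s) (B := fun _ => True)
    trivial G.out_nodup G.out_lt (fun _ _ _ _ => trivial)
    (fun g _ s s' _ _ hr hne h => by
      rw [(hr g.out).resolve_right hne, h]
      exact (FK_raise hr (by rwa [h] at hne)).symm)
    (fun g _ s s' _ _ hr _ hz hne => by
      rw [hz]
      exact (FK_raise hr hne).symm)
  intro g hg
  obtain ⟨h3, h4⟩ := h2 g hg
  by_cases h5 : st (fin (FK K) G.gates G.nodes) g.out = 1
  · rw [h5, h4 h5]
  · exact h3 h5

theorem fin_length (F : Gate → (ℕ → ℕ) → ℕ) (gs : List Gate) (n : ℕ) :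
    (fin F gs n).length = n := iter_length F gs n n

theorem val_algK {K : ℕ} {G : GenCircuit} {i : ℕ} (hi : i < G.nodes) :
    val (algK K G) i = (valK K (st (fin (FK K) G.gates G.nodes) i) : ℚ) := by
  have hl : i < (fin (FK K) G.gates G.nodes).length := by rwa [fin_length]
  unfold val algK st
  rw [List.getD_eq_getElem _ _ (by simpa using hl), List.getD_eq_getElem _ _ hl]
  simp

theorem cls_of_lt {K t : ℕ} (hK : 0 < K) (h : ((valK K t : ℚ) : ℝ) < 1 / 2) : cls K t = 0 := by
  have hK' : (0 : ℝ) < K := by exact_mod_cast hK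
  unfold valK at h
  split_ifs at h with h1
  · push_cast at h
    norm_num at h
  · unfold cls
    rw [if_neg h1, if_neg]
    intro h2
    push_cast at h
    rw [div_lt_div_iff₀ hK' (by norm_num)] at h
    have h3 : ((2 * (t - 2) : ℕ) : ℝ) < K := by push_cast; linarith
    have : 2 * (t - 2) < K := by exact_mod_cast h3
    omega

theorem cls_of_gt {K t : ℕ} (hK : 0 < K) (h : 1 / 2 < ((valK K t : ℚ) : ℝ)) : cls K t = 2 := by
  have hK' : (0 : ℝ) < K := by exact_mod_cast hK
  unfold valK at h
  split_ifs at h with h1
  · push_cast at h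
    norm_num at h
  · unfold cls
    rw [if_neg h1, if_pos]
    push_cast at h
    rw [div_lt_div_iff₀ (by norm_num) hK'] at h
    have h3 : (K : ℝ) < ((2 * (t - 2) : ℕ) : ℝ) := by push_cast; linarith
    have : K < 2 * (t - 2) := by exact_mod_cast h3
    omega

theorem valK_ofCls_zero (K : ℕ) : ((valK K (ofCls K 0) : ℚ) : ℝ) = 0 := by
  simp [ofCls, valK]

theorem valK_ofCls_two {K : ℕ} (hK : 0 < K) : ((valK K (ofCls K 2) : ℚ) : ℝ) = 1 := by
  have hK' : (K : ℝ) ≠ 0 := by
    have : (0 : ℝ) < K := by exact_mod_cast hK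
    exact this.ne'
  have h : ofCls K 2 = K + 2 := by simp [ofCls]
  rw [h]
  unfold valK
  rw [if_neg (by omega), Nat.add_sub_cancel]
  push_cast
  exact div_self hK'

theorem sat_algK {ε : ℝ} (h0 : 0 < ε) (h2 : ε < 1 / 2) {K : ℕ} (hK : 0 < K) (hε : 1 / ε ≤ K)
    (G : GenCircuit) : ∀ g ∈ G.gates, g.isArith = false → g.Sat ε (val (algK K G)) := by
  intro g hg hm
  have hfix := fin_FK_eq K G g hg
  have ho := val_algK (K := K) (G.out_lt g hg)
  have hi : ∀ a ∈ g.ins, val (algK K G) a = (valK K (st (fin (FK K) G.gates G.nodes) a) : ℚ) :=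
    fun a ha => val_algK (G.ins_lt g hg a ha)
  have hpar := G.params_mem g hg
  have hK' : (0 : ℝ) < K := by exact_mod_cast hK
  have h1K : 1 / (K : ℝ) ≤ ε := by
    rw [div_le_iff₀ h0] at hε
    rw [div_le_iff₀ hK']
    linarith
  rw [hfix] at ho
  set s := st (fin (FK K) G.gates G.nodes) with hs
  set x := val (algK K G) with hx
  cases g with
  | const α z =>
    obtain ⟨a0, a1⟩ := hpar α (by simp [Gate.params])
    obtain ⟨f1, f2⟩ := fl_spec a0 K
    simp only [Gate.out, FK] at ho
    simp only [Gate.Sat]
    have e0 : ((valK K (fl α K + 2) : ℚ) : ℝ) = fl α K / K := by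
      unfold valK
      rw [if_neg (by omega)]
      simp
    rw [ho, e0, abs_le]
    have e1 : (fl α K : ℝ) / K ≤ α := by
      rw [div_le_iff₀ hK']; exact f1
    have e2 : (α : ℝ) ≤ (fl α K : ℝ) / K + 1 / K := by
      rw [← add_div, le_div_iff₀ hK']; exact f2.le
    constructor <;> linarith
  | scale α a z => simp [Gate.isArith] at hm
  | copy a z =>
    have ha := hi a (by simp [Gate.ins])
    simp only [Gate.out, FK] at ho
    simp only [Gate.Sat]
    rw [ho, ha]
    simp [h0.le]
  | add a b z => simp [Gate.isArith] at hm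
  | sub a b z => simp [Gate.isArith] at hm
  | less a b z => simp [Gate.isArith] at hm
  | not a z =>
    have ha := hi a (by simp [Gate.ins])
    simp only [Gate.out, FK] at ho
    simp only [Gate.Sat]
    constructor
    · intro h
      have h3 : cls K (s a) = 0 := cls_of_lt hK (by rw [← ha]; linarith)
      rw [ho, h3, valK_ofCls_two hK]
      linarith
    · intro h
      have h3 : cls K (s a) = 2 := cls_of_gt hK (by rw [← ha]; linarith)
      rw [ho, h3, valK_ofCls_zero]
      exact h0.le
  | or a b z =>
    have ha := hi a (by simp [Gate.ins])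
    have hb := hi b (by simp [Gate.ins])
    have la := cls_le K (s a)
    have lb := cls_le K (s b)
    simp only [Gate.out, FK] at ho
    simp only [Gate.Sat]
    constructor
    · intro h
      have h3 : max (cls K (s a)) (cls K (s b)) = 2 := by
        rcases h with h | h
        · have := cls_of_gt (t := s a) hK (by rw [← ha]; linarith)
          omega
        · have := cls_of_gt (t := s b) hK (by rw [← hb]; linarith)
          omega
      rw [ho, h3, valK_ofCls_two hK]
      linarith
    · rintro ⟨h, h'⟩
      have h3 : max (cls K (s a)) (cls K (s b)) = 0 := by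
        have := cls_of_lt (t := s a) hK (by rw [← ha]; linarith)
        have := cls_of_lt (t := s b) hK (by rw [← hb]; linarith)
        omega
      rw [ho, h3, valK_ofCls_zero]
      exact h0.le
  | and a b z =>
    have ha := hi a (by simp [Gate.ins])
    have hb := hi b (by simp [Gate.ins])
    have la := cls_le K (s a)
    have lb := cls_le K (s b)
    simp only [Gate.out, FK] at ho
    simp only [Gate.Sat]
    constructor
    · rintro ⟨h, h'⟩
      have h3 : min (cls K (s a)) (cls K (s b)) = 2 := by
        have := cls_of_gt (t := s a) hK (by rw [← ha]; linarith)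
        have := cls_of_gt (t := s b) hK (by rw [← hb]; linarith)
        omega
      rw [ho, h3, valK_ofCls_two hK]
      linarith
    · intro h
      have h3 : min (cls K (s a)) (cls K (s b)) = 0 := by
        rcases h with h | h
        · have := cls_of_lt (t := s a) hK (by rw [← ha]; linarith)
          omega
        · have := cls_of_lt (t := s b) hK (by rw [← hb]; linarith)
          omega
      rw [ho, h3, valK_ofCls_zero]
      exact h0.le

end Vale.Agent.P330
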