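import Vale.Agent.P330.H241.PTAlg

/-!
The main theorem for problem P330.
-/

namespace Vale.Agent.P330

open Vale.Agent.Lib.PolyTime

/-! ### Numbers of gates -/

theorem two_mul_bad_le (G : GenCircuit) : 2 * G.bad ≤ G.gates.length := by
  have h : (G.gates.filter Gate.isConstNot).length + (G.gates.filter Gate.isArith).length ≤
      G.gates.length := by
    induction G.gates with
    | nil => simp
    | cons g l ih =>
      rw [List.filter_cons, List.filter_cons]
      cases g <;> simp [Gate.isConstNot, Gate.isArith] <;> omega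
  have h1 : G.bad ≤ (G.gates.filter Gate.isConstNot).length :=
    (min_le_left _ _).trans (min_le_left _ _)
  have h2 : G.bad ≤ (G.gates.filter Gate.isArith).length :=
    (min_le_left _ _).trans (min_le_right _ _)
  omega

theorem gates_nodup (G : GenCircuit) : G.gates.Nodup := List.Nodup.of_map _ G.out_nodup

theorem le_numSat {ε : ℝ} {G : GenCircuit} {x : List ℚ} {P : Gate → Bool}
    (h : ∀ g ∈ G.gates, P g = false → g.Sat ε (val x)) :
    G.gates.length ≤ numSat ε G x + G.count P := by
  classical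
  have h1 : (G.gates.filter fun g => !P g).length ≤ numSat ε G x := by
    rw [← List.toFinset_card_of_nodup ((gates_nodup G).filter _)]
    unfold numSat
    rw [← Set.ncard_coe_finset]
    refine Set.ncard_le_ncard ?_ ?_
    · intro g hg
      simp only [List.coe_toFinset, List.mem_filter] at hg
      show g ∈ G.gates ∧ _
      exact ⟨hg.1, h g hg.1 (by simpa using hg.2)⟩
    · refine (List.finite_toSet G.gates).subset ?_
      intro g hg
      exact hg.1
  have h2 : (G.gates.filter P).length + (G.gates.filter fun g => !P g).length =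
      G.gates.length := by
    rw [← List.length_eq_length_filter_add]
  unfold GenCircuit.count
  omega

theorem le_numSat_of_all {ε : ℝ} {G : GenCircuit} {x : List ℚ}
    (h : ∀ g ∈ G.gates, g.Sat ε (val x)) : G.gates.length ≤ numSat ε G x := by
  have h1 := le_numSat (ε := ε) (G := G) (x := x) (P := fun _ => false) fun g hg _ => h g hg
  have h2 : G.count (fun _ => false) = 0 := by simp [GenCircuit.count]
  omega

/-! ### Lengths of codes -/

theorem nodes_le (G : GenCircuit) : G.nodes ≤ (circuitW G).length := by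
  unfold circuitW
  rw [← pr_eq_pairW, length_pr, List.length_replicate]
  omega

theorem length_listW_le {x : List ℚ} {B : ℕ} (h : ∀ r ∈ x, (ratW r).length ≤ B) :
    (listW ratW x).length ≤ x.length * (2 * B + 1) := by
  rw [← enc_listRat]
  exact esize_list_le h

theorem code_le {G : GenCircuit} {x : List ℚ} {B : ℕ} (hx : x.length = G.nodes)
    (h : ∀ r ∈ x, (ratW r).length ≤ B) :
    (listW ratW x).length ≤ (2 * B + 1) * (circuitW G).length := by
  refine (length_listW_le h).trans ?_
  rw [hx, mul_comm]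
  exact Nat.mul_le_mul_left _ (nodes_le G)

theorem exists_bound (f : ℕ → ℚ) (n : ℕ) : ∃ B, ∀ k ≤ n, (ratW (f k)).length ≤ B := by
  refine ⟨(Finset.range (n + 1)).sup fun k => (ratW (f k)).length, fun k hk => ?_⟩
  exact Finset.le_sup (f := fun k => (ratW (f k)).length) (Finset.mem_range.2 (by omega))

/-! ### The algorithm -/

/-- The best of the four assignments. -/
def algB (K : ℕ) (G : GenCircuit) : List ℚ :=
  if G.bad = G.count Gate.isConstNot then List.replicate G.nodes 0
  else if G.bad = G.count Gate.isArith then algK K G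
  else if G.bad = G.count Gate.isNonMono then algM K G
  else algF K G

theorem PT_bad {A : Set Word} : PT A GenCircuit.bad :=
  PT.min (PT.min (PT_count (PT_isConstNot PT.id)) (PT_count (PT_isArith PT.id)))
    (PT.min (PT_count (PT_isNonMono PT.id)) (PT_count (PT_isBackward PT.id)))

theorem PT_algB {A : Set Word} (K : ℕ) : PT A (algB K) :=
  PT.ite (PT.eqNat PT_bad (PT_count (PT_isConstNot PT.id))) (PT_constAssign 0)
    (PT.ite (PT.eqNat PT_bad (PT_count (PT_isArith PT.id))) (PT_algK K)
      (PT.ite (PT.eqNat PT_bad (PT_count (PT_isNonMono PT.id))) (PT_algM K) (PT_algF K)))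

theorem grid_mem {K : ℕ} (hK : 0 < K) {k : ℕ} (hk : k ≤ K) :
    (0 : ℚ) ≤ (k : ℚ) / K ∧ (k : ℚ) / K ≤ 1 := by
  have hK' : (0 : ℚ) < K := by exact_mod_cast hK
  constructor
  · positivity
  · rw [div_le_one hK']
    exact_mod_cast hk

theorem algM_spec {K : ℕ} (G : GenCircuit) : (algM K G).length = G.nodes ∧
    ∀ r ∈ algM K G, ∃ k ≤ K, r = (k : ℚ) / K := by
  unfold algM gridAssign
  refine ⟨by rw [List.length_map, finM_length], fun r hr => ?_⟩
  rw [List.mem_map] at hr
  obtain ⟨k, hk, rfl⟩ := hr
  exact ⟨k, iterM_le (F := FM K) (fun g hg s hs => FM_le hg hs) G.nodes _ k hk, rfl⟩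

theorem algF_spec {K : ℕ} (G : GenCircuit) : (algF K G).length = G.nodes ∧
    ∀ r ∈ algF K G, ∃ k ≤ K, r = (k : ℚ) / K := by
  unfold algF gridAssign
  refine ⟨by rw [List.length_map, finM_length], fun r hr => ?_⟩
  rw [List.mem_map] at hr
  obtain ⟨k, hk, rfl⟩ := hr
  exact ⟨k, iterM_le (F := FF K) (fun g hg s hs => FF_le hg hs) G.nodes _ k hk, rfl⟩

theorem algK_spec {K : ℕ} (G : GenCircuit) : (algK K G).length = G.nodes ∧
    ∀ r ∈ algK K G, r = 1 / 2 ∨ ∃ k ≤ K, r = (k : ℚ) / K := by
  unfold algK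
  refine ⟨by rw [List.length_map, fin_length], fun r hr => ?_⟩
  rw [List.mem_map] at hr
  obtain ⟨t, ht, rfl⟩ := hr
  have h1 : t ≤ K + 2 := iter_le (F := FK K) (by omega) (fun g hg s hs => FK_le hg hs) G.nodes _ t ht
  unfold valK
  split_ifs
  · exact Or.inl rfl
  · exact Or.inr ⟨t - 2, by omega, rfl⟩

theorem algB_spec {K : ℕ} (G : GenCircuit) : (algB K G).length = G.nodes ∧
    ∀ r ∈ algB K G, r = 1 / 2 ∨ r = 0 ∨ ∃ k ≤ K, r = (k : ℚ) / K := by
  unfold algB
  split_ifs
  · refine ⟨List.length_replicate, fun r hr => ?_⟩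
    rw [List.eq_of_mem_replicate hr]
    exact Or.inr (Or.inl rfl)
  · obtain ⟨h1, h2⟩ := algK_spec (K := K) G
    refine ⟨h1, fun r hr => ?_⟩
    rcases h2 r hr with h | h
    · exact Or.inl h
    · exact Or.inr (Or.inr h)
  · obtain ⟨h1, h2⟩ := algM_spec (K := K) G
    exact ⟨h1, fun r hr => Or.inr (Or.inr (h2 r hr))⟩
  · obtain ⟨h1, h2⟩ := algF_spec (K := K) G
    exact ⟨h1, fun r hr => Or.inr (Or.inr (h2 r hr))⟩

theorem algB_sat {ε : ℝ} (h0 : 0 < ε) (h2 : ε < 1 / 2) {K : ℕ} (hK : 0 < K) (hε : 1 / ε ≤ K)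
    (G : GenCircuit) : G.gates.length ≤ numSat ε G (algB K G) + G.bad := by
  unfold algB
  split_ifs with h3 h4 h5
  · rw [h3]
    exact le_numSat (sat_zero h0 (by linarith) G)
  · rw [h4]
    exact le_numSat (sat_algK h0 h2 hK hε G)
  · rw [h5]
    exact le_numSat (sat_algM h0 hK hε G)
  · have h6 : G.bad = G.count Gate.isBackward := by
      unfold GenCircuit.bad at h3 h4 h5 ⊢
      omega
    rw [h6]
    exact le_numSat (sat_algF h0 hK hε G)

/-- The algorithm. -/
theorem exists_alg {ε : ℝ} (h0 : 0 < ε) : ∃ (C : ℕ) (F : GenCircuit → List ℚ), 6 ≤ C ∧ PT ∅ F ∧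
    ∀ G : GenCircuit, IsAssignment G (F G) ∧
      (listW ratW (F G)).length ≤ C * (circuitW G).length ∧
      (1 / 5 ≤ ε → ∀ g ∈ G.gates, g.Sat ε (val (F G))) ∧
      G.gates.length ≤ numSat ε G (F G) + G.bad := by
  by_cases h1 : 1 / 2 ≤ ε
  · obtain ⟨B, hB⟩ := exists_bound (fun _ => 1 / 2) 0
    refine ⟨2 * B + 1 + 6, fun G => List.replicate G.nodes (1 / 2), by omega, PT_constAssign _,
      fun G => ⟨⟨List.length_replicate, fun r hr => ?_⟩, ?_, fun _ => sat_half h1 G, ?_⟩⟩
    · rw [List.eq_of_mem_replicate hr]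
      norm_num
    · refine (code_le (G := G) (B := B) List.length_replicate fun r hr => ?_).trans
        (Nat.mul_le_mul_right _ (by omega))
      rw [List.eq_of_mem_replicate hr]
      exact hB 0 le_rfl
    · exact (le_numSat_of_all (sat_half h1 G)).trans (Nat.le_add_right _ _)
  · push Not at h1
    by_cases h5 : 1 / 5 ≤ ε
    · obtain ⟨B, hB⟩ := exists_bound (fun k => if k = 0 then 1 / 5 else if k = 1 then 2 / 5 else
        if k = 2 then 1 / 2 else if k = 3 then 3 / 5 else 4 / 5) 4
      refine ⟨2 * B + 1 + 6, algA, by omega, PT_algA, fun G => ⟨isAssignment_algA G, ?_,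
        fun _ => sat_algA h5 h1 G, ?_⟩⟩
      · refine (code_le (G := G) (B := B) (isAssignment_algA G).1 fun r hr => ?_).trans
          (Nat.mul_le_mul_right _ (by omega))
        rcases assign_mem hr with h | h | h | h | h <;> rw [h]
        · exact hB 0 (by norm_num)
        · exact hB 1 (by norm_num)
        · exact hB 2 (by norm_num)
        · exact hB 3 (by norm_num)
        · exact hB 4 (by norm_num)
      · have := le_numSat_of_all (sat_algA h5 h1 G)
        omega
    · obtain ⟨K, hK⟩ := exists_nat_ge (1 / ε)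
      have hK0 : 0 < K := by
        have : (0 : ℝ) < K := lt_of_lt_of_le (by positivity) hK
        exact_mod_cast this
      obtain ⟨B, hB⟩ := exists_bound (fun k : ℕ => (k : ℚ) / K) K
      obtain ⟨B', hB'⟩ := exists_bound (fun k : ℕ => if k = 0 then 1 / 2 else 0) 1
      refine ⟨2 * (B + B') + 1 + 6, algB K, by omega, PT_algB K, fun G => ⟨⟨(algB_spec G).1,
        fun r hr => ?_⟩, ?_, fun h => absurd h h5, algB_sat h0 h1 hK0 hK G⟩⟩
      · rcases (algB_spec G).2 r hr with h | h | ⟨k, hk, h⟩
        · rw [h]; norm_num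
        · rw [h]; norm_num
        · rw [h]; exact grid_mem hK0 hk
      · refine (code_le (G := G) (B := B + B') (algB_spec G).1 fun r hr => ?_).trans
          (Nat.mul_le_mul_right _ (by omega))
        rcases (algB_spec G).2 r hr with h | h | ⟨k, hk, h⟩
        · rw [h]; exact (hB' 0 (by norm_num)).trans (by omega)
        · rw [h]; exact (hB' 1 (by norm_num)).trans (by omega)
        · rw [h]; exact (hB k hk).trans (by omega)

/-! ### The codes are injective -/

theorem bits_inj {m n : ℕ} (h : Nat.bits m = Nat.bits n) : m = n := by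
  rw [← Vale.Agent.Lib.PolyTime.val_enc_nat m, ← Vale.Agent.Lib.PolyTime.val_enc_nat n]
  show Vale.Agent.Lib.PolyTime.val (Nat.bits m) = Vale.Agent.Lib.PolyTime.val (Nat.bits n)
  rw [h]

theorem pairW_inj {x y x' y' : List Bool} (h : pairW x y = pairW x' y') : x = x' ∧ y = y' := by
  rw [← pr_eq_pairW, ← pr_eq_pairW] at h
  exact pr_inj h

theorem ratW_inj {r s : ℚ} (h : ratW r = ratW s) : r = s := by
  unfold ratW at h
  obtain ⟨h1, h2⟩ := pairW_inj h
  obtain ⟨h3, h4⟩ := pairW_inj h2
  have h5 := bits_inj h3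
  have h6 := bits_inj h4
  have h7 : (r < 0) ↔ (s < 0) := by
    have := List.singleton_inj.1 h1
    exact decide_eq_decide.1 this
  have h8 : r.num = s.num := by
    rw [← Rat.num_neg, ← Rat.num_neg] at h7
    omega
  exact Rat.ext h8 h6

theorem gateW_eq (g : Gate) : gateW g = pairW (Nat.bits g.data.1) (pairW (ratW g.data.2.1)
    (pairW (Nat.bits g.data.2.2.1) (pairW (Nat.bits g.data.2.2.2.1)
      (Nat.bits g.data.2.2.2.2)))) := by
  cases g <;> rfl

theorem gateW_inj {g g' : Gate} (h : gateW g = gateW g') : g = g' := by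
  rw [gateW_eq, gateW_eq] at h
  obtain ⟨h1, h⟩ := pairW_inj h
  obtain ⟨h2, h⟩ := pairW_inj h
  obtain ⟨h3, h⟩ := pairW_inj h
  obtain ⟨h4, h⟩ := pairW_inj h
  have h1 := bits_inj h1
  have h2 := ratW_inj h2
  have h3 := bits_inj h3
  have h4 := bits_inj h4
  have h5 := bits_inj h
  cases g <;> cases g' <;> simp only [Gate.data] at h1 h2 h3 h4 h5 <;>
    first
      | (exfalso; omega)
      | (subst_vars; rfl)

theorem listW_inj {α : Type} {c : α → List Bool} (hc : ∀ a b, c a = c b → a = b) :
    ∀ {l l' : List α}, listW c l = listW c l' → l = l'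
  | [], [], _ => rfl
  | [], a :: l, h => by simp [listW, pairW] at h
  | a :: l, [], h => by simp [listW, pairW] at h
  | a :: l, b :: l', h => by
    obtain ⟨h1, h2⟩ := pairW_inj h
    rw [hc a b h1, listW_inj hc h2]

theorem circuitW_inj {G G' : GenCircuit} (h : circuitW G = circuitW G') : G = G' := by
  unfold circuitW at h
  obtain ⟨h1, h2⟩ := pairW_inj h
  have h3 : G.nodes = G'.nodes := by simpa using congrArg List.length h1
  have h4 : G.gates = G'.gates := listW_inj (fun a b => gateW_inj) h2
  cases G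
  cases G'
  simp only at h3 h4
  subst h3 h4
  rfl

/-! ### Changing a function on short words -/

theorem FP_patch {A : Set Word} (m : ℕ) : ∀ (t g : Word → Word), FP A g →
    FP A (fun w => if w.length < m then t w else g w) := by
  induction m with
  | zero =>
    intro t g hg
    refine hg.congr fun w => ?_
    simp
  | succ m ih =>
    intro t g hg
    have h0 := ih (fun w => t (false :: w)) (fun w => g (false :: w)) (hg.comp (FP.cons false))
    have h1 := ih (fun w => t (true :: w)) (fun w => g (true :: w)) (hg.comp (FP.cons true))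
    have h2 := (FP.id (A := A)).case3 (FP.const (t [])) (h0.comp FP.tail) (h1.comp FP.tail)
    refine h2.congr fun w => ?_
    rcases w with _ | ⟨b, w⟩
    · simp
    · cases b
      · simp
        rfl
      · simp
        rfl

/-! ### Reductions -/

theorem two_le_eolW (I : EndOfLine) : 2 ≤ (eolW I).length := by
  unfold eolW
  rw [← pr_eq_pairW, length_pr, ← pr_eq_pairW, length_pr]
  omega

/-- The algorithm, changed on small circuits, gives acceptable assignments. -/
theorem exists_solver {ε δ : ℝ} {p : Polynomial ℕ} {C : ℕ} {F : GenCircuit → List ℚ}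
    (hF : PT ∅ F) (h1 : ∀ G, IsAssignment G (F G))
    (h2 : ∀ G, (listW ratW (F G)).length ≤ C * (circuitW G).length)
    (hp : ∀ᶠ m in Filter.atTop, C * m ≤ p.eval m) :
    ∃ F' : GenCircuit → List ℚ, PT ∅ F' ∧ ∀ G, (∃ x, Acceptable ε δ p G x) →
      (1 - δ) * G.gates.length ≤ numSat ε G (F G) → Acceptable ε δ p G (F' G) := by
  classical
  obtain ⟨m, hm⟩ := Filter.eventually_atTop.1 hp
  let F' : GenCircuit → List ℚ := fun G =>
    if (circuitW G).length < m then
      (if h : ∃ x, Acceptable ε δ p G x then h.choose else [])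
    else F G
  refine ⟨F', ?_, fun G hG hs => ?_⟩
  · obtain ⟨g, hg, hg'⟩ := hF
    let t : Word → Word := fun w =>
      if h : ∃ G : GenCircuit, circuitW G = w then enc (F' h.choose) else []
    refine ⟨_, FP_patch m t g hg, fun G => ?_⟩
    show (if (circuitW G).length < m then t (circuitW G) else g (circuitW G)) = _
    split_ifs with h
    · have h3 : ∃ G' : GenCircuit, circuitW G' = circuitW G := ⟨G, rfl⟩
      have h4 : h3.choose = G := circuitW_inj h3.choose_spec
      simp only [t]
      rw [dif_pos h3, h4]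
    · have h5 : F' G = F G := by simp only [F']; rw [if_neg h]
      rw [h5]
      exact hg' G
  · by_cases h : (circuitW G).length < m
    · have h5 : F' G = hG.choose := by simp only [F']; rw [if_pos h, dif_pos hG]
      rw [h5]
      exact hG.choose_spec
    · have h5 : F' G = F G := by simp only [F']; rw [if_neg h]
      rw [h5]
      exact ⟨h1 G, (h2 G).trans (hm _ (not_lt.1 h)), hs⟩

theorem inFP_of_solver {ε δ : ℝ} {p : Polynomial ℕ} {R : EndOfLine → GenCircuit}
    {D : EndOfLine × List ℚ → List Bool} (h : IsReduction ε δ p R D) {F : GenCircuit → List ℚ}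
    (hF : PT ∅ F) (hacc : ∀ I, Acceptable ε δ p (R I) (F (R I))) : EndOfLineInFP := by
  obtain ⟨hR, hD, hI⟩ := h
  obtain ⟨gR, hR1, hR2⟩ := polyTime_iff.1 hR
  obtain ⟨gD, hD1, hD2⟩ := polyTime_iff.1 hD
  obtain ⟨gF, hF1, hF2⟩ := hF
  refine ⟨fun I => D (I, F (R I)), polyTime_iff.2 ⟨_, hD1.comp (FP.id.pair (hF1.comp hR1)),
    fun I => ?_⟩, fun I => (hI I).2 _ (hacc I)⟩
  have h1 : gF (gR (eolW I)) = listW ratW (F (R I)) := by
    rw [hR2]
    have h3 := hF2 (R I)
    rw [enc_listRat] at h3
    exact h3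
  show gD (pr (eolW I) (gF (gR (eolW I)))) = D (I, F (R I))
  rw [h1, pr_eq_pairW]
  exact hD2 (I, F (R I))

/-- A circuit with one gate and `m + 1` nodes. -/
def oneGate (m : ℕ) : GenCircuit where
  nodes := m + 1
  gates := [.const 0 0]
  gates_ne := by simp
  out_lt := by simp [Gate.out]
  ins_lt := by simp [Gate.ins]
  out_nodup := by simp
  params_mem := by simp [Gate.params]

theorem ratW_zero_length : (ratW 0).length = 5 := by
  unfold ratW
  simp [pairW]

theorem acceptable_oneGate {ε δ : ℝ} (hε : 0 < ε) (hδ : 0 < δ) {p : Polynomial ℕ} {C m : ℕ}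
    (hC : 6 ≤ C) (hm : ∀ k ≥ m, C * k ≤ p.eval k) :
    Acceptable ε δ p (oneGate m) (List.replicate (m + 1) 0) := by
  have hlen : 2 * (m + 1) + 1 ≤ (circuitW (oneGate m)).length := by
    unfold circuitW
    rw [← pr_eq_pairW, length_pr, List.length_replicate]
    show 2 * (m + 1) + 1 ≤ 2 * (m + 1) + _ + 1
    omega
  refine ⟨⟨List.length_replicate, fun r hr => ?_⟩, ?_, ?_⟩
  · rw [List.eq_of_mem_replicate hr]
    norm_num
  · refine le_trans ?_ (hm _ (by omega))
    refine (length_listW_le (B := 5) fun r hr => ?_).trans ?_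
    · rw [List.eq_of_mem_replicate hr, ratW_zero_length]
    · rw [List.length_replicate]
      nlinarith
  · have h1 : (oneGate m).gates.length ≤ numSat ε (oneGate m) (List.replicate (m + 1) 0) := by
      refine le_numSat_of_all fun g hg => ?_
      have hg' : g = .const 0 0 := by simpa [oneGate] using hg
      rw [hg']
      simp [Gate.Sat, val, hε.le]
    have h2 : ((oneGate m).gates.length : ℝ) ≤
        numSat ε (oneGate m) (List.replicate (m + 1) 0) := by exact_mod_cast h1
    have h3 : (0 : ℝ) ≤ (oneGate m).gates.length := Nat.cast_nonneg _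
    nlinarith

theorem reduction_of_inFP {ε δ : ℝ} (hε : 0 < ε) (hδ : 0 < δ) {p : Polynomial ℕ} {C : ℕ}
    (hC : 6 ≤ C) (hp : ∀ᶠ m in Filter.atTop, C * m ≤ p.eval m) (h : EndOfLineInFP) :
    PCPforPPAD ε δ p := by
  obtain ⟨m, hm⟩ := Filter.eventually_atTop.1 hp
  obtain ⟨f, hf, hf'⟩ := h
  obtain ⟨g, hg, hg'⟩ := polyTime_iff.1 hf
  refine ⟨fun _ => oneGate m, fun q => f q.1, ⟨?_, ?_, fun I => ⟨⟨_, acceptable_oneGate hε hδ hC hm⟩,
    fun x _ => hf' I⟩⟩, (circuitW (oneGate m)).length, fun I => ?_⟩
  · exact polyTime_iff.2 ⟨_, FP.const (circuitW (oneGate m)), fun _ => rfl⟩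
  · refine polyTime_iff.2 ⟨_, hg.comp FP.fst, fun q => ?_⟩
    show g (fstW (pairW (eolW q.1) (listW ratW q.2))) = f q.1
    rw [← pr_eq_pairW, fstW_pr, hg']
  · have h1 := two_le_eolW I
    have h2 : 1 ≤ Nat.log 2 (eolW I).length := Nat.log_pos (by norm_num) h1
    have h3 : 1 ≤ Nat.log 2 (eolW I).length ^ (circuitW (oneGate m)).length := Nat.one_le_pow _ _ h2
    calc (circuitW (oneGate m)).length = (circuitW (oneGate m)).length * 1 * 1 := by ring
      _ ≤ (circuitW (oneGate m)).length * (eolW I).length *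
          Nat.log 2 (eolW I).length ^ (circuitW (oneGate m)).length :=
        Nat.mul_le_mul (Nat.mul_le_mul_left _ (by omega)) h3

/-- Polynomials of degree at least `2` are large. -/
theorem eventually_of_degree {p : Polynomial ℕ} (h : 2 ≤ p.natDegree) (C : ℕ) :
    ∀ᶠ m in Filter.atTop, C * m ≤ p.eval m := by
  filter_upwards [Filter.eventually_ge_atTop (C + 1)] with m hm
  have h1 : p.coeff p.natDegree * m ^ p.natDegree ≤ p.eval m := by
    rw [Polynomial.eval_eq_sum_range]
    exact Finset.single_le_sum (f := fun i => p.coeff i * m ^ i) (fun _ _ => Nat.zero_le _)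
      (Finset.mem_range.2 (Nat.lt_succ_self _))
  have h2 : 1 ≤ p.coeff p.natDegree := by
    rw [Nat.one_le_iff_ne_zero]
    intro h3
    have h4 : p = 0 := Polynomial.leadingCoeff_eq_zero.1 h3
    rw [h4] at h
    simp at h
  have h3 : m ^ 2 ≤ m ^ p.natDegree := Nat.pow_le_pow_right (by omega) h
  nlinarith [Nat.zero_le (m ^ p.natDegree)]

end Vale.Agent.P330
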