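import Vale.Agent.P330.H241.Grid

/-!
The algorithm for `ε ≥ 1/10`, which satisfies all gates except Scale, Add and Subtract gates.
States: `1` unknown, value `1/2`; `k + 2` stands for the value `k / 10`, where `k` is one of
`1, 2, 4, 6, 8, 9`.
-/

namespace Vale.Agent.P330

/-- Rounding of a parameter. -/
def rnd (α : ℚ) : ℕ :=
  if α ≤ 1 / 5 then 3 else if α ≤ 3 / 10 then 4 else if α ≤ 1 / 2 then 6
  else if α ≤ 7 / 10 then 8 else if α ≤ 4 / 5 then 10 else 11

/-- The class of a state. -/
def c3 (t : ℕ) : ℕ := if t = 1 then 1 else if t ≤ 6 then 0 else 2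

/-- The state for a class. -/
def o3 (c : ℕ) : ℕ := if c = 0 then 3 else if c = 2 then 11 else 1

/-- The state of the output of a Less gate. -/
def lessT (i j : ℕ) : ℕ :=
  if i = 1 then (if j = 1 then 1 else if 10 ≤ j then 11 else if j ≤ 4 then 3 else 1)
  else if j = 1 then (if 10 ≤ i then 3 else if i ≤ 4 then 11 else 1)
  else if i + 1 < j then 11 else if j + 1 < i then 3 else 1

/-- The state forced by the states of the inputs. -/
def FT (g : Gate) (s : ℕ → ℕ) : ℕ :=
  match g with
  | .const α _ => rnd α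
  | .copy a _ => s a
  | .less a b _ => lessT (s a) (s b)
  | .not a _ => o3 (2 - c3 (s a))
  | .or a b _ => o3 (max (c3 (s a)) (c3 (s b)))
  | .and a b _ => o3 (min (c3 (s a)) (c3 (s b)))
  | _ => 1

/-- The states in use. -/
def BT (t : ℕ) : Prop := t = 1 ∨ t = 3 ∨ t = 4 ∨ t = 6 ∨ t = 8 ∨ t = 10 ∨ t = 11

/-- Ten times the value of a state. -/
def wT (t : ℕ) : ℕ := if t = 1 then 5 else t - 2

/-- The value of a state. -/
def valT (t : ℕ) : ℚ := (wT t : ℚ) / 10

/-- The assignment. -/
def algT (G : GenCircuit) : List ℚ := (fin FT G.gates G.nodes).map valT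

/-- In all resolutions of the states, the first value exceeds the second by at most `1/10`. -/
def LeT (i j : ℕ) : Prop := (i ≠ 1 ∧ i ≤ 4) ∨ 10 ≤ j ∨ (i ≠ 1 ∧ j ≠ 1 ∧ i ≤ j + 1)

/-- The invariant. -/
def OKT (g : Gate) (s : ℕ → ℕ) : Prop :=
  match g with
  | .less a b z => (s z = 11 ∧ LeT (s a) (s b)) ∨ (s z = 3 ∧ LeT (s b) (s a))
  | g => s g.out = FT g s

theorem bt_rnd (α : ℚ) : BT (rnd α) := by
  unfold rnd BT
  split_ifs <;> simp

theorem bt_o3 (c : ℕ) : BT (o3 c) := by
  unfold o3 BT
  split_ifs <;> simp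

theorem bt_lessT (i j : ℕ) : BT (lessT i j) := by
  unfold lessT BT
  split_ifs <;> simp

theorem bt_FT {g : Gate} {s : ℕ → ℕ} (hs : ∀ i, BT (s i)) : BT (FT g s) := by
  cases g with
  | const α z => exact bt_rnd α
  | scale α a z => exact Or.inl rfl
  | copy a z => exact hs a
  | add a b z => exact Or.inl rfl
  | sub a b z => exact Or.inl rfl
  | less a b z => exact bt_lessT _ _
  | not a z => exact bt_o3 _
  | or a b z => exact bt_o3 _
  | and a b z => exact bt_o3 _

theorem c3_raise {s s' : ℕ → ℕ} (hr : Raise s s') {a : ℕ} (h : c3 (s a) ≠ 1) :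
    c3 (s' a) = c3 (s a) := by
  rcases hr a with h1 | h1
  · rw [h1]
  · exact absurd (by simp [c3, h1]) h

theorem c3_le (t : ℕ) : c3 t ≤ 2 := by
  unfold c3
  split_ifs <;> omega

theorem FT_raise {g : Gate} {s s' : ℕ → ℕ} (hg : ∀ a b z, g ≠ .less a b z) (hr : Raise s s')
    (h : FT g s ≠ 1) : FT g s' = FT g s := by
  cases g with
  | const α z => rfl
  | scale α a z => simp [FT] at h
  | copy a z =>
    simp only [FT] at h ⊢
    exact (hr a).resolve_right h
  | add a b z => simp [FT] at h
  | sub a b z => simp [FT] at h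
  | less a b z => exact absurd rfl (hg a b z)
  | not a z =>
    simp only [FT] at h ⊢
    have h1 : c3 (s a) ≠ 1 := by
      intro h1
      rw [h1] at h
      exact h (by simp [o3])
    rw [c3_raise hr h1]
  | or a b z =>
    simp only [FT] at h ⊢
    congr 1
    have ha := c3_le (s a)
    have hb := c3_le (s b)
    have ha' := c3_le (s' a)
    have hb' := c3_le (s' b)
    by_cases h1 : max (c3 (s a)) (c3 (s b)) = 1
    · rw [h1] at h
      exact absurd (by simp [o3]) h
    · by_cases h2 : c3 (s a) = 1
      · have h3 : c3 (s b) = 2 := by omega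
        have h4 := c3_raise hr (a := b) (by omega)
        omega
      · have h4 := c3_raise hr h2
        by_cases h3 : c3 (s b) = 1
        · omega
        · have h5 := c3_raise hr h3
          omega
  | and a b z =>
    simp only [FT] at h ⊢
    congr 1
    have ha := c3_le (s a)
    have hb := c3_le (s b)
    have ha' := c3_le (s' a)
    have hb' := c3_le (s' b)
    by_cases h1 : min (c3 (s a)) (c3 (s b)) = 1
    · rw [h1] at h
      exact absurd (by simp [o3]) h
    · by_cases h2 : c3 (s a) = 1
      · have h3 : c3 (s b) = 0 := by omega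
        have h4 := c3_raise hr (a := b) (by omega)
        omega
      · have h4 := c3_raise hr h2
        by_cases h3 : c3 (s b) = 1
        · omega
        · have h5 := c3_raise hr h3
          omega

theorem LeT_raise {i j i' j' : ℕ} (hi : i' = i ∨ i = 1) (hj : j' = j ∨ j = 1)
    (bi : BT i') (bj : BT j') (h : LeT i j) : LeT i' j' := by
  unfold LeT BT at *
  revert bi bj
  omega

theorem LeT_lessT {i j : ℕ} (bi : BT i) (bj : BT j) (h : lessT i j ≠ 1) :
    (lessT i j = 11 ∧ LeT i j) ∨ (lessT i j = 3 ∧ LeT j i) := by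
  unfold lessT at *
  unfold LeT BT at *
  split_ifs at h ⊢ <;> omega

theorem ok_raiseT {g : Gate} {s s' : ℕ → ℕ} (hs' : ∀ i, BT (s' i))
    (hr : Raise s s') (hne : s g.out ≠ 1) (h : OKT g s) : OKT g s' := by
  have hz : s' g.out = s g.out := (hr g.out).resolve_right hne
  by_cases hg : ∃ a b z, g = .less a b z
  · obtain ⟨a, b, z, rfl⟩ := hg
    simp only [OKT, Gate.out] at h hz ⊢
    rw [hz]
    rcases h with ⟨h1, h2⟩ | ⟨h1, h2⟩
    · exact Or.inl ⟨h1, LeT_raise (hr a) (hr b) (hs' a) (hs' b) h2⟩
    · exact Or.inr ⟨h1, LeT_raise (hr b) (hr a) (hs' b) (hs' a) h2⟩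
  · push Not at hg
    have key : OKT g s' ↔ s' g.out = FT g s' := by
      cases g <;> first | rfl | exact absurd rfl (hg _ _ _)
    have key' : OKT g s ↔ s g.out = FT g s := by
      cases g <;> first | rfl | exact absurd rfl (hg _ _ _)
    rw [key, hz]
    rw [key'] at h
    rw [h]
    exact (FT_raise hg hr (by rwa [h] at hne)).symm

theorem ok_newT {g : Gate} {s s' : ℕ → ℕ} (hs : ∀ i, BT (s i)) (hs' : ∀ i, BT (s' i))
    (hr : Raise s s') (hz : s' g.out = FT g s) (hne : FT g s ≠ 1) : OKT g s' := by
  by_cases hg : ∃ a b z, g = .less a b z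
  · obtain ⟨a, b, z, rfl⟩ := hg
    simp only [OKT, Gate.out, FT] at hz hne ⊢
    rw [hz]
    rcases LeT_lessT (hs a) (hs b) hne with ⟨h1, h2⟩ | ⟨h1, h2⟩
    · exact Or.inl ⟨h1, LeT_raise (hr a) (hr b) (hs' a) (hs' b) h2⟩
    · exact Or.inr ⟨h1, LeT_raise (hr b) (hr a) (hs' b) (hs' a) h2⟩
  · push Not at hg
    have key : OKT g s' ↔ s' g.out = FT g s' := by
      cases g <;> first | rfl | exact absurd rfl (hg _ _ _)
    rw [key, hz]
    exact (FT_raise hg hr hne).symm

theorem final_FT (G : GenCircuit) : (∀ i, BT (st (fin FT G.gates G.nodes) i)) ∧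
    ∀ g ∈ G.gates, (st (fin FT G.gates G.nodes) g.out ≠ 1 → OKT g (st (fin FT G.gates G.nodes))) ∧
      (st (fin FT G.gates G.nodes) g.out = 1 → FT g (st (fin FT G.gates G.nodes)) = 1) :=
  fin_inv (F := FT) (Q := OKT) (B := BT) (Or.inl rfl) G.out_nodup G.out_lt
    (fun _ _ _ hs => bt_FT hs) (fun _ _ _ _ _ hs' hr hne h => ok_raiseT hs' hr hne h)
    (fun _ _ _ _ hs hs' hr _ hz hne => ok_newT hs hs' hr hz hne)

theorem val_algT {G : GenCircuit} {i : ℕ} (hi : i < G.nodes) :
    val (algT G) i = (wT (st (fin FT G.gates G.nodes) i) : ℝ) / 10 := by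
  have hl : i < (fin FT G.gates G.nodes).length := by rwa [fin_length]
  unfold val algT st
  rw [List.getD_eq_getElem _ _ (by simpa using hl), List.getD_eq_getElem _ _ hl]
  simp [valT]

theorem c3_lo {t : ℕ} (b : BT t) (h : (wT t : ℝ) / 10 < 1 / 2) : c3 t = 0 := by
  have h1 : (wT t : ℝ) < 5 := by linarith
  have h2 : wT t < 5 := by exact_mod_cast h1
  unfold BT at b
  unfold wT at h2
  unfold c3
  split_ifs at h2 ⊢ <;> omega

theorem c3_hi {t : ℕ} (b : BT t) (h : 1 / 2 < (wT t : ℝ) / 10) : c3 t = 2 := by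
  have h1 : (5 : ℝ) < wT t := by linarith
  have h2 : 5 < wT t := by exact_mod_cast h1
  unfold BT at b
  unfold wT at h2
  unfold c3
  split_ifs at h2 ⊢ <;> omega

theorem rnd_spec {α : ℚ} (h0 : 0 ≤ α) (h1 : α ≤ 1) : |(wT (rnd α) : ℝ) / 10 - α| ≤ 1 / 10 := by
  have h : |(wT (rnd α) : ℚ) / 10 - α| ≤ 1 / 10 := by
    unfold rnd
    rw [abs_le]
    split_ifs <;> simp only [wT] <;> norm_num <;> constructor <;> linarith
  have h2 : ((|(wT (rnd α) : ℚ) / 10 - α| : ℚ) : ℝ) ≤ ((1 / 10 : ℚ) : ℝ) := by exact_mod_cast h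
  push_cast at h2
  exact h2

theorem less_key {i j z : ℕ} (bi : BT i) (bj : BT j) (bz : BT z)
    (h1 : z ≠ 1 → (z = 11 ∧ LeT i j) ∨ (z = 3 ∧ LeT j i)) (h2 : z = 1 → lessT i j = 1) :
    (wT i + 1 < wT j → z = 11) ∧ (wT j + 1 < wT i → z = 3) := by
  by_cases hz : z = 1
  · have h3 := h2 hz
    subst hz
    unfold BT at bi bj
    rcases bi with rfl | rfl | rfl | rfl | rfl | rfl | rfl <;>
      rcases bj with rfl | rfl | rfl | rfl | rfl | rfl | rfl <;>
      simp [lessT, wT] at h3 ⊢
  · have h3 := h1 hz
    unfold BT at bi bj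
    unfold LeT at h3
    rcases bi with rfl | rfl | rfl | rfl | rfl | rfl | rfl <;>
      rcases bj with rfl | rfl | rfl | rfl | rfl | rfl | rfl <;>
      simp [wT] at h3 ⊢ <;> omega

/-- For `1/10 ≤ ε < 1/2` all gates are satisfied except Scale, Add and Subtract gates. -/
theorem sat_algT {ε : ℝ} (h1 : 1 / 10 ≤ ε) (h2 : ε < 1 / 2) (G : GenCircuit) :
    ∀ g ∈ G.gates, g.isArith3 = false → g.Sat ε (val (algT G)) := by
  intro g hg hm
  obtain ⟨hB, hF⟩ := final_FT G
  obtain ⟨f1, f2⟩ := hF g hg
  have ho := val_algT (G.out_lt g hg)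
  have hi : ∀ a ∈ g.ins, val (algT G) a = (wT (st (fin FT G.gates G.nodes) a) : ℝ) / 10 :=
    fun a ha => val_algT (G.ins_lt g hg a ha)
  have hpar := G.params_mem g hg
  set s := st (fin FT G.gates G.nodes) with hs
  set x := val (algT G) with hx
  have hfix : (∀ a b z, g ≠ .less a b z) → s g.out = FT g s := by
    intro hgl
    by_cases h : s g.out = 1
    · rw [h, f2 h]
    · have key : OKT g s ↔ s g.out = FT g s := by
        cases g <;> first | rfl | exact absurd rfl (hgl _ _ _)
      exact key.1 (f1 h)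
  have w3 : (wT 3 : ℝ) / 10 = 1 / 10 := by norm_num [wT]
  have w11 : (wT 11 : ℝ) / 10 = 9 / 10 := by norm_num [wT]
  cases g with
  | const α z =>
    obtain ⟨a0, a1⟩ := hpar α (by simp [Gate.params])
    have h3 := hfix (by simp)
    simp only [Gate.out, FT] at ho h3
    simp only [Gate.Sat]
    rw [ho, h3]
    exact (rnd_spec a0 a1).trans h1
  | scale α a z => simp [Gate.isArith3] at hm
  | copy a z =>
    have ha := hi a (by simp [Gate.ins])
    have h3 := hfix (by simp)
    simp only [Gate.out, FT] at ho h3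
    simp only [Gate.Sat]
    rw [ho, ha, h3, sub_self, abs_zero]
    linarith
  | add a b z => simp [Gate.isArith3] at hm
  | sub a b z => simp [Gate.isArith3] at hm
  | less a b z =>
    have ha := hi a (by simp [Gate.ins])
    have hb := hi b (by simp [Gate.ins])
    simp only [Gate.out, OKT, FT] at ho f1 f2
    obtain ⟨k1, k2⟩ := less_key (hB a) (hB b) (hB z) f1 f2
    simp only [Gate.Sat]
    constructor
    · intro h
      have h3 : (wT (s a) : ℝ) + 1 < wT (s b) := by
        rw [ha, hb] at h
        linarith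
      have h4 : s z = 11 := k1 (by exact_mod_cast h3)
      rw [ho, h4, w11]
      linarith
    · intro h
      have h3 : (wT (s b) : ℝ) + 1 < wT (s a) := by
        rw [ha, hb] at h
        linarith
      have h4 : s z = 3 := k2 (by exact_mod_cast h3)
      rw [ho, h4, w3]
      exact h1
  | not a z =>
    have ha := hi a (by simp [Gate.ins])
    have h3 := hfix (by simp)
    simp only [Gate.out, FT] at ho h3
    simp only [Gate.Sat]
    constructor
    · intro h
      have h4 : c3 (s a) = 0 := c3_lo (hB a) (by rw [← ha]; linarith)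
      rw [ho, h3, h4]
      simp only [o3]
      norm_num [wT]
      linarith
    · intro h
      have h4 : c3 (s a) = 2 := c3_hi (hB a) (by rw [← ha]; linarith)
      rw [ho, h3, h4]
      simp only [o3]
      norm_num [wT]
      linarith
  | or a b z =>
    have ha := hi a (by simp [Gate.ins])
    have hb := hi b (by simp [Gate.ins])
    have la := c3_le (s a)
    have lb := c3_le (s b)
    have h3 := hfix (by simp)
    simp only [Gate.out, FT] at ho h3
    simp only [Gate.Sat]
    constructor
    · intro h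
      have h4 : max (c3 (s a)) (c3 (s b)) = 2 := by
        rcases h with h | h
        · have := c3_hi (hB a) (by rw [← ha]; linarith)
          omega
        · have := c3_hi (hB b) (by rw [← hb]; linarith)
          omega
      rw [ho, h3, h4]
      simp only [o3]
      norm_num [wT]
      linarith
    · rintro ⟨h, h'⟩
      have h4 : max (c3 (s a)) (c3 (s b)) = 0 := by
        have := c3_lo (hB a) (by rw [← ha]; linarith)
        have := c3_lo (hB b) (by rw [← hb]; linarith)
        omega
      rw [ho, h3, h4]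
      simp only [o3]
      norm_num [wT]
      linarith
  | and a b z =>
    have ha := hi a (by simp [Gate.ins])
    have hb := hi b (by simp [Gate.ins])
    have la := c3_le (s a)
    have lb := c3_le (s b)
    have h3 := hfix (by simp)
    simp only [Gate.out, FT] at ho h3
    simp only [Gate.Sat]
    constructor
    · rintro ⟨h, h'⟩
      have h4 : min (c3 (s a)) (c3 (s b)) = 2 := by
        have := c3_hi (hB a) (by rw [← ha]; linarith)
        have := c3_hi (hB b) (by rw [← hb]; linarith)
        omega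
      rw [ho, h3, h4]
      simp only [o3]
      norm_num [wT]
      linarith
    · intro h
      have h4 : min (c3 (s a)) (c3 (s b)) = 0 := by
        rcases h with h | h
        · have := c3_lo (hB a) (by rw [← ha]; linarith)
          omega
        · have := c3_lo (hB b) (by rw [← hb]; linarith)
          omega
      rw [ho, h3, h4]
      simp only [o3]
      norm_num [wT]
      linarith

end Vale.Agent.P330
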