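import Vale.Agent.P330.H241.PTAlg
import Vale.Agent.P330.H241.Tenth

/-!
The algorithm for `ε ≥ 1/10` runs in polynomial time.
-/

namespace Vale.Agent.P330

open Vale.Agent.Lib.PolyTime

variable {A : Set Word} {α β γ : Type*} [Enc α] [Enc β] [Enc γ]

theorem PT_rnd {f : α → ℚ} (hf : PT A f) : PT A (fun a => rnd (f a)) := by
  unfold rnd
  refine PT.ite (PT_ratLe hf 1 5 (by norm_num) _ (by norm_num)) (PT.const _) ?_
  refine PT.ite (PT_ratLe hf 3 10 (by norm_num) _ (by norm_num)) (PT.const _) ?_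
  refine PT.ite (PT_ratLe hf 1 2 (by norm_num) _ (by norm_num)) (PT.const _) ?_
  refine PT.ite (PT_ratLe hf 7 10 (by norm_num) _ (by norm_num)) (PT.const _) ?_
  exact PT.ite (PT_ratLe hf 4 5 (by norm_num) _ (by norm_num)) (PT.const _) (PT.const _)

theorem PT_c3 {f : α → ℕ} (hf : PT A f) : PT A (fun a => c3 (f a)) :=
  PT.ite (PT.eqNat hf (PT.const 1)) (PT.const 1)
    (PT.ite (PT.le hf (PT.const 6)) (PT.const 0) (PT.const 2))

theorem PT_o3 {f : α → ℕ} (hf : PT A f) : PT A (fun a => o3 (f a)) :=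
  PT.ite (PT.eqNat hf (PT.const 0)) (PT.const 3)
    (PT.ite (PT.eqNat hf (PT.const 2)) (PT.const 11) (PT.const 1))

theorem PT_lessT {f g : α → ℕ} (hf : PT A f) (hg : PT A g) :
    PT A (fun a => lessT (f a) (g a)) := by
  unfold lessT
  refine PT.ite (PT.eqNat hf (PT.const 1)) ?_ (PT.ite (PT.eqNat hg (PT.const 1)) ?_ ?_)
  · exact PT.ite (PT.eqNat hg (PT.const 1)) (PT.const 1)
      (PT.ite (PT.le (PT.const 10) hg) (PT.const 11)
        (PT.ite (PT.le hg (PT.const 4)) (PT.const 3) (PT.const 1)))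
  · exact PT.ite (PT.le (PT.const 10) hf) (PT.const 3)
      (PT.ite (PT.le hf (PT.const 4)) (PT.const 11) (PT.const 1))
  · exact PT.ite (PT.lt (PT.add hf (PT.const 1)) hg) (PT.const 11)
      (PT.ite (PT.lt (PT.add hg (PT.const 1)) hf) (PT.const 3) (PT.const 1))

theorem PT_FT : PT A (fun p : Gate × List ℕ => FT p.1 (st p.2)) := by
  have hd : PT A (fun p : Gate × List ℕ => p.1) := PT.fst'
  have ha : PT A (fun p : Gate × List ℕ => st p.2 p.1.data.2.2.1) := PT_st PT.snd' (PT_in1 hd)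
  have hb : PT A (fun p : Gate × List ℕ => st p.2 p.1.data.2.2.2.1) := PT_st PT.snd' (PT_in2 hd)
  have hp := PT_par hd
  refine PT_gateCase (F := fun g (p : Gate × List ℕ) => FT g (st p.2)) hd
    (f0 := fun α _ _ _ _ => rnd α)
    (f1 := fun _ _ _ _ _ => 1)
    (f2 := fun a _ _ p => st p.2 a)
    (f3 := fun _ _ _ _ => 1)
    (f4 := fun _ _ _ _ => 1)
    (f5 := fun a b _ p => lessT (st p.2 a) (st p.2 b))
    (f6 := fun a _ _ p => o3 (2 - c3 (st p.2 a)))
    (f7 := fun a b _ p => o3 (max (c3 (st p.2 a)) (c3 (st p.2 b))))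
    (f8 := fun a b _ p => o3 (min (c3 (st p.2 a)) (c3 (st p.2 b))))
    ?_ (PT.const _) ha (PT.const _) (PT.const _) ?_ ?_ ?_ ?_
    ?_ ?_ ?_ ?_ ?_ ?_ ?_ ?_ ?_
  · exact PT_rnd hp
  · exact PT_lessT ha hb
  · exact PT_o3 ((PT.const 2).sub (PT_c3 ha))
  · exact PT_o3 (PT.max (PT_c3 ha) (PT_c3 hb))
  · exact PT_o3 (PT.min (PT_c3 ha) (PT_c3 hb))
  all_goals intros; rfl

theorem o3_le (c : ℕ) : o3 c ≤ 11 := by
  unfold o3
  split_ifs <;> omega

theorem FT_le {g : Gate} {s : ℕ → ℕ} (hs : ∀ i, s i ≤ 11) : FT g s ≤ 11 := by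
  cases g with
  | const α z => simp only [FT, rnd]; split_ifs <;> omega
  | scale α a z => simp [FT]
  | copy a z => exact hs a
  | add a b z => simp [FT]
  | sub a b z => simp [FT]
  | less a b z => simp only [FT, lessT]; split_ifs <;> omega
  | not a z => exact o3_le _
  | or a b z => exact o3_le _
  | and a b z => exact o3_le _

theorem PT_algT : PT A algT := by
  have hB : ∀ G : GenCircuit, ∀ g ∈ G.gates, ∀ s : ℕ → ℕ, (∀ i, s i ≤ 11) → FT g s ≤ 11 :=
    fun G g _ s hs => FT_le hs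
  have h1 : PT A (fun G : GenCircuit => fin FT G.gates G.nodes) :=
    PT_fin PT_FT (by omega) hB
  exact PT_mapTab h1 valT fun G => iter_le (by omega) (hB G) G.nodes _

theorem PT_isArith3 {g : α → Gate} (hg : PT A g) : PT A (fun a => (g a).isArith3) :=
  PT_gateCase (F := fun g _ => g.isArith3) hg (f0 := fun _ _ _ _ _ => false)
    (f1 := fun _ _ _ _ _ => true) (f2 := fun _ _ _ _ => false) (f3 := fun _ _ _ _ => true)
    (f4 := fun _ _ _ _ => true) (f5 := fun _ _ _ _ => false) (f6 := fun _ _ _ _ => false)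
    (f7 := fun _ _ _ _ => false) (f8 := fun _ _ _ _ => false)
    (PT.const _) (PT.const _) (PT.const _) (PT.const _) (PT.const _) (PT.const _) (PT.const _)
    (PT.const _) (PT.const _) (fun _ _ _ => rfl) (fun _ _ _ _ => rfl) (fun _ _ _ => rfl)
    (fun _ _ _ _ => rfl) (fun _ _ _ _ => rfl) (fun _ _ _ _ => rfl) (fun _ _ _ => rfl)
    (fun _ _ _ _ => rfl) (fun _ _ _ _ => rfl)

end Vale.Agent.P330
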