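import Vale.Agent.P330.H241.Main
import Vale.Agent.P330.H241.PTTenth

/-!
The algorithm of `Main`, combined with the algorithm for `ε ≥ 1/10`.
-/

namespace Vale.Agent.P330

open Vale.Agent.Lib.PolyTime

theorem algT_spec (G : GenCircuit) : (algT G).length = G.nodes ∧
    ∀ r ∈ algT G, ∃ t ≤ 11, r = valT t := by
  unfold algT
  refine ⟨by rw [List.length_map, fin_length], fun r hr => ?_⟩
  rw [List.mem_map] at hr
  obtain ⟨t, ht, rfl⟩ := hr
  exact ⟨t, iter_le (F := FT) (by omega) (fun g _ s hs => FT_le hs) G.nodes _ t ht, rfl⟩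

theorem exists_alg2 {ε : ℝ} (h0 : 0 < ε) : ∃ (C : ℕ) (F : GenCircuit → List ℚ), 6 ≤ C ∧ PT ∅ F ∧
    ∀ G : GenCircuit, IsAssignment G (F G) ∧
      (listW ratW (F G)).length ≤ C * (circuitW G).length ∧
      (1 / 5 ≤ ε → ∀ g ∈ G.gates, g.Sat ε (val (F G))) ∧
      G.gates.length ≤ numSat ε G (F G) + G.bad ∧
      (1 / 10 ≤ ε → G.gates.length ≤ numSat ε G (F G) + G.count Gate.isArith3) := by
  obtain ⟨C, F, hC, hF, hG⟩ := exists_alg h0
  by_cases h5 : 1 / 5 ≤ ε
  · refine ⟨C, F, hC, hF, fun G => ⟨(hG G).1, (hG G).2.1, (hG G).2.2.1, (hG G).2.2.2, fun _ => ?_⟩⟩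
    exact (le_numSat_of_all ((hG G).2.2.1 h5)).trans (Nat.le_add_right _ _)
  · by_cases h10 : 1 / 10 ≤ ε
    · push Not at h5
      obtain ⟨B, hB⟩ := exists_bound valT 11
      refine ⟨C + (2 * B + 1), fun G => if G.count Gate.isArith3 ≤ G.bad then algT G else F G,
        by omega, ?_, fun G => ?_⟩
      · exact PT.ite (PT.le (PT_count (PT_isArith3 PT.id)) PT_bad) PT_algT hF
      · obtain ⟨k1, k2⟩ := algT_spec G
        have hsat := le_numSat (sat_algT h10 (by linarith) G)
        by_cases h : G.count Gate.isArith3 ≤ G.bad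
        · simp only [h, if_true]
          refine ⟨⟨k1, fun r hr => ?_⟩, ?_, fun h => absurd h (not_le.2 h5), by omega,
            fun _ => hsat⟩
          · obtain ⟨t, ht, rfl⟩ := k2 r hr
            unfold valT wT
            constructor
            · positivity
            · rw [div_le_one (by norm_num)]
              split_ifs
              · norm_num
              · have : t - 2 ≤ 10 := by omega
                exact_mod_cast this
          · refine (code_le k1 (B := B) fun r hr => ?_).trans
              (Nat.mul_le_mul_right _ (by omega))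
            obtain ⟨t, ht, rfl⟩ := k2 r hr
            exact hB t ht
        · simp only [h, if_false]
          obtain ⟨g1, g2, g3, g4⟩ := hG G
          exact ⟨g1, g2.trans (Nat.mul_le_mul_right _ (by omega)), g3, g4, fun _ => by omega⟩
    · refine ⟨C, F, hC, hF, fun G => ⟨(hG G).1, (hG G).2.1, (hG G).2.2.1, (hG G).2.2.2,
        fun h => absurd h h10⟩⟩

end Vale.Agent.P330
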