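import Vale.Agent.P330.H241.Code

/-!
The algorithms for problem P330 run in polynomial time.
-/

namespace Vale.Agent.P330

open Vale.Agent.Lib.PolyTime

variable {A : Set Word} {α β γ : Type*} [Enc α] [Enc β] [Enc γ]

/-! ### Iterations -/

theorem PT_st {L : α → List ℕ} {i : α → ℕ} (hL : PT A L) (hi : PT A i) :
    PT A (fun a => st (L a) (i a)) := PT.getD hL hi (PT.const 1)

theorem PT_sz {L : α → List ℕ} {i : α → ℕ} (hL : PT A L) (hi : PT A i) :
    PT A (fun a => sz (L a) (i a)) := PT.getD hL hi (PT.const 0)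

theorem PT_upd {F : Gate → (ℕ → ℕ) → ℕ} (hF : PT A (fun p : Gate × List ℕ => F p.1 (st p.2)))
    {gs : α → List Gate} {L : α → List ℕ} {i : α → ℕ} (hg : PT A gs) (hL : PT A L) (hi : PT A i) :
    PT A (fun a => upd F (gs a) (L a) (i a)) := by
  unfold upd
  refine PT.ite (PT.eqNat (PT_st hL hi) (PT.const 1)) ?_ (PT_st hL hi)
  refine (PT.optCase (g := fun a g => F g (st (L a))) (PT_gateOf hg hi) (PT.const 1)
    (hF.comp (PT.snd'.pair (hL.comp PT.fst')))).congr fun a => ?_
  rcases gateOf (gs a) (i a) with _ | g <;> rfl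

theorem esize_states_le {L : List ℕ} {B : ℕ} (h : ∀ x ∈ L, x ≤ B) :
    esize L ≤ L.length * (2 * B + 1) :=
  esize_list_le fun x hx => (esize_nat_le_self x).trans (h x hx)

theorem st_le {L : List ℕ} {B : ℕ} (hB : 1 ≤ B) (h : ∀ x ∈ L, x ≤ B) (i : ℕ) : st L i ≤ B := by
  unfold st
  by_cases hi : i < L.length
  · rw [List.getD_eq_getElem _ _ hi]
    exact h _ (List.getElem_mem hi)
  · rw [List.getD_eq_default _ _ (by omega)]
    exact hB

theorem sz_le {L : List ℕ} {B : ℕ} (h : ∀ x ∈ L, x ≤ B) (i : ℕ) : sz L i ≤ B := by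
  unfold sz
  by_cases hi : i < L.length
  · rw [List.getD_eq_getElem _ _ hi]
    exact h _ (List.getElem_mem hi)
  · rw [List.getD_eq_default _ _ (by omega)]
    exact Nat.zero_le _

theorem iter_le {F : Gate → (ℕ → ℕ) → ℕ} {B : ℕ} (hB : 1 ≤ B) {gs : List Gate}
    (hF : ∀ g ∈ gs, ∀ s : ℕ → ℕ, (∀ i, s i ≤ B) → F g s ≤ B) (n k : ℕ) :
    ∀ x ∈ (step F gs n)^[k] (List.replicate n 1), x ≤ B := by
  induction k with
  | zero =>
    intro x hx
    rw [List.eq_of_mem_replicate hx]
    exact hB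
  | succ k ih =>
    intro x hx
    rw [Function.iterate_succ_apply'] at hx
    unfold step at hx
    rw [List.mem_map] at hx
    obtain ⟨i, -, rfl⟩ := hx
    have h1 := st_le hB ih
    unfold upd
    split_ifs
    · rcases h3 : gateOf gs i with _ | g
      · exact hB
      · exact hF g (gateOf_some h3).1 _ h1
    · exact h1 i

theorem PT_fin {F : Gate → (ℕ → ℕ) → ℕ} (hF : PT A (fun p : Gate × List ℕ => F p.1 (st p.2)))
    {B : ℕ} (hB : 1 ≤ B)
    (hFB : ∀ G : GenCircuit, ∀ g ∈ G.gates, ∀ s : ℕ → ℕ, (∀ i, s i ≤ B) → F g s ≤ B) :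
    PT A (fun G : GenCircuit => fin F G.gates G.nodes) := by
  unfold fin
  refine PT.iterate' (step := fun (G : GenCircuit) L => step F G.gates G.nodes L)
    (PT_nodes PT.id) (PBd_nodes (A := A) PT.id)
    (PT.replicate (PT_nodes PT.id) (PBd_nodes (A := A) PT.id) (PT.const 1)) ?_
    (b := fun G => G.nodes * (2 * B + 1)) ?_ ?_
  · unfold step
    refine PT.map (f := fun (p : GenCircuit × List ℕ) i => upd F p.1.gates p.2 i)
      (PT.range (PT_nodes PT.fst') (PBd_nodes (A := A) PT.fst')) ?_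
    exact PT_upd hF (PT_gates PT.fst'.fst) PT.fst'.snd PT.snd'
  · exact (PBd_nodes (A := A) PT.id).mul (PBd.const _)
  · intro G j _
    refine (esize_states_le (iter_le hB (hFB G) G.nodes j)).trans ?_
    rw [iter_length]

theorem iterM_le {F : Gate → (ℕ → ℕ) → ℕ} {B : ℕ} {gs : List Gate}
    (hF : ∀ g ∈ gs, ∀ s : ℕ → ℕ, (∀ i, s i ≤ B) → F g s ≤ B) (n k : ℕ) :
    ∀ x ∈ (stepM F gs n)^[k] (List.replicate n 0), x ≤ B := by
  induction k with
  | zero =>
    intro x hx
    rw [List.eq_of_mem_replicate hx]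
    exact Nat.zero_le _
  | succ k ih =>
    intro x hx
    rw [Function.iterate_succ_apply'] at hx
    unfold stepM at hx
    rw [List.mem_map] at hx
    obtain ⟨i, -, rfl⟩ := hx
    have h1 := sz_le ih
    rcases h3 : gateOf gs i with _ | g
    · exact Nat.zero_le _
    · exact hF g (gateOf_some h3).1 _ h1

theorem PT_finM {F : Gate → (ℕ → ℕ) → ℕ} (hF : PT A (fun p : Gate × List ℕ => F p.1 (sz p.2)))
    {B : ℕ}
    (hFB : ∀ G : GenCircuit, ∀ g ∈ G.gates, ∀ s : ℕ → ℕ, (∀ i, s i ≤ B) → F g s ≤ B)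
    {N : GenCircuit → ℕ} (hN : PT A N) (hNB : PBd N) :
    PT A (fun G : GenCircuit => finM F G.gates G.nodes (N G)) := by
  unfold finM
  refine PT.iterate' (step := fun (G : GenCircuit) L => stepM F G.gates G.nodes L)
    hN hNB
    (PT.replicate (PT_nodes PT.id) (PBd_nodes (A := A) PT.id) (PT.const 0)) ?_
    (b := fun G => G.nodes * (2 * B + 1)) ?_ ?_
  · unfold stepM
    refine PT.map (f := fun (p : GenCircuit × List ℕ) i => match gateOf p.1.gates i with
      | none => 0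
      | some g => F g (sz p.2))
      (PT.range (PT_nodes PT.fst') (PBd_nodes (A := A) PT.fst')) ?_
    refine (PT.optCase (o := fun p : (GenCircuit × List ℕ) × ℕ => gateOf p.1.1.gates p.2)
      (g := fun p g => F g (sz p.1.2)) (PT_gateOf (PT_gates PT.fst'.fst) PT.snd') (PT.const 0)
      (hF.comp (PT.snd'.pair PT.fst'.fst.snd))).congr fun p => ?_
    rcases gateOf p.1.1.gates p.2 with _ | g <;> rfl
  · exact (PBd_nodes (A := A) PT.id).mul (PBd.const _)
  · intro G j _
    refine (esize_states_le (iterM_le (hFB G) G.nodes j)).trans ?_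
    have : ((stepM F G.gates G.nodes)^[j] (List.replicate G.nodes 0)).length = G.nodes :=
      finM_length F G.gates G.nodes j
    rw [this]

/-! ### The functions of gates -/

theorem PT_thr : PT A (fun p : Gate × List ℕ => thr p.1 (st p.2)) := by
  have hd : PT A (fun p : Gate × List ℕ => p.1) := PT.fst'
  have ha : PT A (fun p : Gate × List ℕ => st p.2 p.1.data.2.2.1) := PT_st PT.snd' (PT_in1 hd)
  have hb : PT A (fun p : Gate × List ℕ => st p.2 p.1.data.2.2.2.1) := PT_st PT.snd' (PT_in2 hd)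
  have hp := PT_par hd
  refine PT_gateCase (F := fun g (p : Gate × List ℕ) => thr g (st p.2)) hd
    (f0 := fun α _ _ _ _ => if α ≤ 2 / 5 then 0 else if 3 / 5 ≤ α then 2 else 1)
    (f1 := fun α a _ _ p => if α < 2 / 3 then 0 else st p.2 a)
    (f2 := fun a _ _ p => st p.2 a)
    (f3 := fun _ _ _ _ => 2)
    (f4 := fun _ _ _ _ => 0)
    (f5 := fun a b _ p => if st p.2 a < st p.2 b then 2 else if st p.2 b < st p.2 a then 0 else 1)
    (f6 := fun a _ _ p => 2 - st p.2 a)
    (f7 := fun a b _ p => max (st p.2 a) (st p.2 b))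
    (f8 := fun a b _ p => min (st p.2 a) (st p.2 b))
    ?_ ?_ ?_ ?_ ?_ ?_ ?_ ?_ ?_ ?_ ?_ ?_ ?_ ?_ ?_ ?_ ?_ ?_
  · refine PT.ite (PT_ratLe hp 2 5 (by norm_num) _ (by norm_num)) (PT.const 0) ?_
    refine PT.ite ?_ (PT.const 2) (PT.const 1)
    refine (PT_ratLt hp 3 5 (by norm_num) (by norm_num) (3 / 5) (by norm_num)).not.congr fun x => ?_
    rw [← decide_not]
    exact decide_eq_decide.2 not_lt
  · exact PT.ite (PT_ratLt hp 2 3 (by norm_num) (by norm_num) _ (by norm_num)) (PT.const 0) ha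
  · exact ha
  · exact PT.const 2
  · exact PT.const 0
  · exact PT.ite (PT.lt ha hb) (PT.const 2) (PT.ite (PT.lt hb ha) (PT.const 0) (PT.const 1))
  · exact (PT.const 2).sub ha
  · exact PT.max ha hb
  · exact PT.min ha hb
  all_goals intros; rfl

theorem PT_base {f : α → ℕ} (hf : PT A f) : PT A (fun a => base (f a)) :=
  PT.ite (PT.eqNat hf (PT.const 0)) (PT.const _)
    (PT.ite (PT.eqNat hf (PT.const 2)) (PT.const _) (PT.const _))

theorem PT_valG : PT A (fun p : Gate × List ℕ => valG (st p.2) p.1) := by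
  have hd : PT A (fun p : Gate × List ℕ => p.1) := PT.fst'
  have ha : PT A (fun p : Gate × List ℕ => st p.2 p.1.data.2.2.1) := PT_st PT.snd' (PT_in1 hd)
  have hb : PT A (fun p : Gate × List ℕ => st p.2 p.1.data.2.2.2.1) := PT_st PT.snd' (PT_in2 hd)
  have hz : PT A (fun p : Gate × List ℕ => st p.2 p.1.out) := PT_st PT.snd' (PT_out hd)
  have hp := PT_par hd
  have hbz := PT_base hz
  refine PT_gateCase (F := fun g (p : Gate × List ℕ) => valG (st p.2) g) hd
    (f0 := fun _ _ _ z p => base (st p.2 z))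
    (f1 := fun α a _ z p => if st p.2 z = 2 then 3 / 5
      else if st p.2 z = 0 ∧ st p.2 a = 2 ∧ 1 / 2 < α then 2 / 5
      else base (st p.2 z))
    (f2 := fun _ _ z p => base (st p.2 z))
    (f3 := fun a b _ p => if st p.2 a = 0 ∧ st p.2 b = 0 then 3 / 5 else 4 / 5)
    (f4 := fun a b _ p => if st p.2 a = 2 ∧ st p.2 b = 0 then 2 / 5 else 1 / 5)
    (f5 := fun _ _ z p => base (st p.2 z))
    (f6 := fun _ _ z p => base (st p.2 z))
    (f7 := fun _ _ z p => base (st p.2 z))
    (f8 := fun _ _ z p => base (st p.2 z))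
    hbz ?_ hbz ?_ ?_ hbz hbz hbz hbz ?_ ?_ ?_ ?_ ?_ ?_ ?_ ?_ ?_
  · refine PT.ite (PT.eqNat hz (PT.const 2)) (PT.const _) (PT.ite ?_ (PT.const _) hbz)
    refine PT.decide_and (PT.eqNat hz (PT.const 0)) (PT.decide_and (PT.eqNat ha (PT.const 2)) ?_)
    refine (PT_ratLe hp 1 2 (by norm_num) (1 / 2) (by norm_num)).not.congr fun x => ?_
    rw [← decide_not]
    exact decide_eq_decide.2 not_le
  · exact PT.ite (PT.decide_and (PT.eqNat ha (PT.const 0)) (PT.eqNat hb (PT.const 0)))
      (PT.const _) (PT.const _)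
  · exact PT.ite (PT.decide_and (PT.eqNat ha (PT.const 2)) (PT.eqNat hb (PT.const 0)))
      (PT.const _) (PT.const _)
  all_goals intros; rfl

theorem valN_eq (gs : List Gate) (s : ℕ → ℕ) (i : ℕ) :
    valN gs s i = ((gateOf gs i).map (valG s)).getD (1 / 2) := by
  unfold valN
  rcases gateOf gs i with _ | g
  · simp only [Option.map_none, Option.getD_none]
  · simp only [Option.map_some, Option.getD_some]

theorem PT_optMap {o : α → Option β} {g : α → β → γ} (ho : PT A o)
    (hg : PT A (fun p : α × β => g p.1 p.2)) : PT A (fun a => (o a).map (g a)) := by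
  refine (PT.optCase (f := fun _ => none) (g := fun a b => some (g a b)) ho (PT.const none)
    (PT.some hg)).congr fun a => ?_
  rcases o a with _ | b <;> rfl

theorem PT_valG' {L : α → List ℕ} (hL : PT A L) :
    PT A (fun p : α × Gate => valG (st (L p.1)) p.2) := by
  have h0 : PT A (fun p : α × Gate => (p.2, L p.1)) := PT.snd'.pair (hL.comp PT.fst')
  have h2 := PT.comp (g := fun q : Gate × List ℕ => valG (st q.2) q.1) PT_valG h0
  exact h2

theorem PT_valN {gs : α → List Gate} {L : α → List ℕ} {i : α → ℕ} (hg : PT A gs) (hL : PT A L)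
    (hi : PT A i) : PT A (fun a => valN (gs a) (st (L a)) (i a)) := by
  have h1 := PT_gateOf hg hi
  have h2 : PT A (fun a => (gateOf (gs a) (i a)).map (valG (st (L a)))) :=
    PT_optMap (g := fun a g => valG (st (L a)) g) h1 (PT_valG' hL)
  have h3 := PT.optGetD h2 (PT.const (1 / 2 : ℚ))
  refine h3.congr fun a => ?_
  rw [valN_eq]

theorem PT_algA : PT A algA := by
  have h1 : PT A (fun G : GenCircuit => fin thr G.gates G.nodes) :=
    PT_fin PT_thr (B := 2) (by norm_num) fun G g _ s hs => thr_le hs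
  have h3 : PT A (fun p : GenCircuit × ℕ => fin thr p.1.gates p.1.nodes) := h1.comp PT.fst'
  have h2 := PT_valN (PT_gates (PT.fst' (A := A) (α := GenCircuit) (β := ℕ))) h3 PT.snd'
  have h4 := PT.map (f := fun (G : GenCircuit) i =>
    valN G.gates (st (fin thr G.gates G.nodes)) i)
    (PT.range (PT_nodes (PT.id (A := A))) (PBd_nodes (A := A) PT.id)) h2
  exact h4

/-! ### Grid algorithms -/

theorem PT_evalG (K : ℕ) : PT A (fun p : Gate × List ℕ => evalG K p.1 (sz p.2)) := by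
  have hd : PT A (fun p : Gate × List ℕ => p.1) := PT.fst'
  have ha : PT A (fun p : Gate × List ℕ => sz p.2 p.1.data.2.2.1) := PT_sz PT.snd' (PT_in1 hd)
  have hb : PT A (fun p : Gate × List ℕ => sz p.2 p.1.data.2.2.2.1) := PT_sz PT.snd' (PT_in2 hd)
  have hp := PT_par hd
  refine PT_gateCase (F := fun g (p : Gate × List ℕ) => evalG K g (sz p.2)) hd
    (f0 := fun α _ _ _ _ => fl α K)
    (f1 := fun α a _ _ p => fl α (sz p.2 a))
    (f2 := fun a _ _ p => sz p.2 a)
    (f3 := fun a b _ p => min (sz p.2 a + sz p.2 b) K)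
    (f4 := fun a b _ p => sz p.2 a - sz p.2 b)
    (f5 := fun a b _ p => if sz p.2 a < sz p.2 b then K else 0)
    (f6 := fun a _ _ p => K - sz p.2 a)
    (f7 := fun a b _ p => max (sz p.2 a) (sz p.2 b))
    (f8 := fun a b _ p => min (sz p.2 a) (sz p.2 b))
    ?_ ?_ ?_ ?_ ?_ ?_ ?_ ?_ ?_ ?_ ?_ ?_ ?_ ?_ ?_ ?_ ?_ ?_
  · exact PT_fl hp (PT.const K)
  · exact PT_fl hp ha
  · exact ha
  · exact PT.min (PT.add ha hb) (PT.const K)
  · exact PT.sub ha hb
  · exact PT.ite (PT.lt ha hb) (PT.const K) (PT.const 0)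
  · exact (PT.const K).sub ha
  · exact PT.max ha hb
  · exact PT.min ha hb
  all_goals intros; rfl

theorem PT_isConstNot {g : α → Gate} (hg : PT A g) : PT A (fun a => (g a).isConstNot) :=
  PT_gateCase (F := fun g _ => g.isConstNot) hg (f0 := fun _ _ _ _ _ => true)
    (f1 := fun _ _ _ _ _ => false) (f2 := fun _ _ _ _ => false) (f3 := fun _ _ _ _ => false)
    (f4 := fun _ _ _ _ => false) (f5 := fun _ _ _ _ => false) (f6 := fun _ _ _ _ => true)
    (f7 := fun _ _ _ _ => false) (f8 := fun _ _ _ _ => false)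
    (PT.const _) (PT.const _) (PT.const _) (PT.const _) (PT.const _) (PT.const _) (PT.const _)
    (PT.const _) (PT.const _) (fun _ _ _ => rfl) (fun _ _ _ _ => rfl) (fun _ _ _ => rfl)
    (fun _ _ _ _ => rfl) (fun _ _ _ _ => rfl) (fun _ _ _ _ => rfl) (fun _ _ _ => rfl)
    (fun _ _ _ _ => rfl) (fun _ _ _ _ => rfl)

theorem PT_isArith {g : α → Gate} (hg : PT A g) : PT A (fun a => (g a).isArith) :=
  PT_gateCase (F := fun g _ => g.isArith) hg (f0 := fun _ _ _ _ _ => false)
    (f1 := fun _ _ _ _ _ => true) (f2 := fun _ _ _ _ => false) (f3 := fun _ _ _ _ => true)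
    (f4 := fun _ _ _ _ => true) (f5 := fun _ _ _ _ => true) (f6 := fun _ _ _ _ => false)
    (f7 := fun _ _ _ _ => false) (f8 := fun _ _ _ _ => false)
    (PT.const _) (PT.const _) (PT.const _) (PT.const _) (PT.const _) (PT.const _) (PT.const _)
    (PT.const _) (PT.const _) (fun _ _ _ => rfl) (fun _ _ _ _ => rfl) (fun _ _ _ => rfl)
    (fun _ _ _ _ => rfl) (fun _ _ _ _ => rfl) (fun _ _ _ _ => rfl) (fun _ _ _ => rfl)
    (fun _ _ _ _ => rfl) (fun _ _ _ _ => rfl)

theorem PT_isNonMono {g : α → Gate} (hg : PT A g) : PT A (fun a => (g a).isNonMono) :=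
  PT_gateCase (F := fun g _ => g.isNonMono) hg (f0 := fun _ _ _ _ _ => false)
    (f1 := fun _ _ _ _ _ => false) (f2 := fun _ _ _ _ => false) (f3 := fun _ _ _ _ => false)
    (f4 := fun _ _ _ _ => true) (f5 := fun _ _ _ _ => true) (f6 := fun _ _ _ _ => true)
    (f7 := fun _ _ _ _ => false) (f8 := fun _ _ _ _ => false)
    (PT.const _) (PT.const _) (PT.const _) (PT.const _) (PT.const _) (PT.const _) (PT.const _)
    (PT.const _) (PT.const _) (fun _ _ _ => rfl) (fun _ _ _ _ => rfl) (fun _ _ _ => rfl)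
    (fun _ _ _ _ => rfl) (fun _ _ _ _ => rfl) (fun _ _ _ _ => rfl) (fun _ _ _ => rfl)
    (fun _ _ _ _ => rfl) (fun _ _ _ _ => rfl)

theorem PT_isBackward {g : α → Gate} (hg : PT A g) : PT A (fun a => (g a).isBackward) := by
  have h1 := PT.le (PT_out hg) (PT_in1 hg)
  have h2 := PT.le (PT_out hg) (PT_in2 hg)
  refine PT_gateCase (F := fun g (_ : α) => g.isBackward) hg (f0 := fun _ _ _ _ _ => false)
    (f1 := fun _ a _ z _ => decide (z ≤ a))
    (f2 := fun a _ z _ => decide (z ≤ a))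
    (f3 := fun a b z _ => decide (z ≤ a) || decide (z ≤ b))
    (f4 := fun a b z _ => decide (z ≤ a) || decide (z ≤ b))
    (f5 := fun a b z _ => decide (z ≤ a) || decide (z ≤ b))
    (f6 := fun a _ z _ => decide (z ≤ a))
    (f7 := fun a b z _ => decide (z ≤ a) || decide (z ≤ b))
    (f8 := fun a b z _ => decide (z ≤ a) || decide (z ≤ b))
    (PT.const _) h1 h1 (h1.or h2) (h1.or h2) (h1.or h2) h1 (h1.or h2) (h1.or h2)
    (fun _ _ _ => rfl) ?_ ?_ ?_ ?_ ?_ ?_ ?_ ?_
  all_goals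
    intros
    simp only [Gate.isBackward, Gate.ins, Gate.out, List.any_cons, List.any_nil, Bool.or_false]
    rfl

theorem PT_FM (K : ℕ) : PT A (fun p : Gate × List ℕ => FM K p.1 (sz p.2)) := by
  unfold FM
  refine (PT.cond (PT_isNonMono PT.fst') (PT.const 0) (PT_evalG K)).congr fun p => ?_
  cases p.1.isNonMono <;> simp

theorem PT_FF (K : ℕ) : PT A (fun p : Gate × List ℕ => FF K p.1 (sz p.2)) := by
  unfold FF
  refine (PT.cond (PT_isBackward PT.fst') (PT.const 0) (PT_evalG K)).congr fun p => ?_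
  cases p.1.isBackward <;> simp

/-- Table lookup. -/
def tab (T : List ℚ) (i : ℕ) : ℚ := T.getD i 0

theorem PT_tab (T : List ℚ) : PT A (fun i : ℕ => tab T i) :=
  PT.getD (PT.const T) PT.id (PT.const 0)

theorem tab_eq {f : ℕ → ℚ} {n i : ℕ} (hi : i < n) : tab ((List.range n).map f) i = f i := by
  unfold tab
  rw [List.getD_eq_getElem _ _ (by simpa using hi)]
  simp

theorem PT_mapTab {L : α → List ℕ} (hL : PT A L) {B : ℕ} (f : ℕ → ℚ)
    (hB : ∀ a, ∀ x ∈ L a, x ≤ B) : PT A (fun a => (L a).map f) := by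
  have h1 : PT A (fun p : α × ℕ => tab ((List.range (B + 1)).map f) p.2) :=
    (PT_tab _).comp PT.snd'
  have h2 := PT.map (f := fun (_ : α) i => tab ((List.range (B + 1)).map f) i) hL h1
  refine h2.congr fun a => ?_
  refine List.map_congr_left fun x hx => ?_
  exact tab_eq (Nat.lt_succ_of_le (hB a x hx))

theorem PT_algM (K : ℕ) : PT A (algM K) := by
  have hB : ∀ G : GenCircuit, ∀ g ∈ G.gates, ∀ s : ℕ → ℕ, (∀ i, s i ≤ K) → FM K g s ≤ K :=
    fun G g hg s hs => FM_le hg hs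
  have h1 : PT A (fun G : GenCircuit => finM (FM K) G.gates G.nodes (G.nodes * K)) :=
    PT_finM (PT_FM K) hB (PT.mul (PT_nodes PT.id) (PT.const K))
      ((PBd_nodes (A := A) PT.id).mul (PBd.const K))
  exact PT_mapTab h1 (fun k : ℕ => (k : ℚ) / K) fun G => iterM_le (hB G) G.nodes _

theorem FF_le {G : GenCircuit} {g : Gate} (hg : g ∈ G.gates) {K : ℕ} {s : ℕ → ℕ}
    (hs : ∀ i, s i ≤ K) : FF K g s ≤ K := by
  unfold FF
  split_ifs
  · exact Nat.zero_le _
  · exact evalG_le hg hs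

theorem PT_algF (K : ℕ) : PT A (algF K) := by
  have hB : ∀ G : GenCircuit, ∀ g ∈ G.gates, ∀ s : ℕ → ℕ, (∀ i, s i ≤ K) → FF K g s ≤ K :=
    fun G g hg s hs => FF_le hg hs
  have h1 : PT A (fun G : GenCircuit => finM (FF K) G.gates G.nodes G.nodes) :=
    PT_finM (PT_FF K) hB (PT_nodes PT.id) (PBd_nodes (A := A) PT.id)
  exact PT_mapTab h1 (fun k : ℕ => (k : ℚ) / K) fun G => iterM_le (hB G) G.nodes _

/-! ### The three-valued algorithm -/

theorem PT_cls (K : ℕ) {f : α → ℕ} (hf : PT A f) : PT A (fun a => cls K (f a)) :=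
  PT.ite (PT.eqNat hf (PT.const 1)) (PT.const 1)
    (PT.ite (PT.le (PT.const K) (PT.mul (PT.const 2) (hf.sub (PT.const 2)))) (PT.const 2)
      (PT.const 0))

theorem PT_ofCls (K : ℕ) {f : α → ℕ} (hf : PT A f) : PT A (fun a => ofCls K (f a)) :=
  PT.ite (PT.eqNat hf (PT.const 0)) (PT.const 2)
    (PT.ite (PT.eqNat hf (PT.const 2)) (PT.const (K + 2)) (PT.const 1))

theorem PT_FK (K : ℕ) : PT A (fun p : Gate × List ℕ => FK K p.1 (st p.2)) := by
  have hd : PT A (fun p : Gate × List ℕ => p.1) := PT.fst'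
  have ha : PT A (fun p : Gate × List ℕ => st p.2 p.1.data.2.2.1) := PT_st PT.snd' (PT_in1 hd)
  have hb : PT A (fun p : Gate × List ℕ => st p.2 p.1.data.2.2.2.1) := PT_st PT.snd' (PT_in2 hd)
  have hp := PT_par hd
  refine PT_gateCase (F := fun g (p : Gate × List ℕ) => FK K g (st p.2)) hd
    (f0 := fun α _ _ _ _ => fl α K + 2)
    (f1 := fun _ _ _ _ _ => 1)
    (f2 := fun a _ _ p => st p.2 a)
    (f3 := fun _ _ _ _ => 1)
    (f4 := fun _ _ _ _ => 1)
    (f5 := fun _ _ _ _ => 1)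
    (f6 := fun a _ _ p => ofCls K (2 - cls K (st p.2 a)))
    (f7 := fun a b _ p => ofCls K (max (cls K (st p.2 a)) (cls K (st p.2 b))))
    (f8 := fun a b _ p => ofCls K (min (cls K (st p.2 a)) (cls K (st p.2 b))))
    ?_ (PT.const _) ha (PT.const _) (PT.const _) (PT.const _) ?_ ?_ ?_
    ?_ ?_ ?_ ?_ ?_ ?_ ?_ ?_ ?_
  · exact PT.add (PT_fl hp (PT.const K)) (PT.const 2)
  · exact PT_ofCls K ((PT.const 2).sub (PT_cls K ha))
  · exact PT_ofCls K (PT.max (PT_cls K ha) (PT_cls K hb))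
  · exact PT_ofCls K (PT.min (PT_cls K ha) (PT_cls K hb))
  all_goals intros; rfl

theorem ofCls_le (K c : ℕ) : ofCls K c ≤ K + 2 := by
  unfold ofCls
  split_ifs <;> omega

theorem FK_le {G : GenCircuit} {g : Gate} (hg : g ∈ G.gates) {K : ℕ} {s : ℕ → ℕ}
    (hs : ∀ i, s i ≤ K + 2) : FK K g s ≤ K + 2 := by
  have hpar := G.params_mem g hg
  cases g with
  | const α z =>
    obtain ⟨h0, h1⟩ := hpar α (by simp [Gate.params])
    have := fl_le h0 h1 K
    simp only [FK]
    omega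
  | scale α a z => simp [FK]
  | copy a z => exact hs a
  | add a b z => simp [FK]
  | sub a b z => simp [FK]
  | less a b z => simp [FK]
  | not a z => exact ofCls_le _ _
  | or a b z => exact ofCls_le _ _
  | and a b z => exact ofCls_le _ _

theorem PT_algK (K : ℕ) : PT A (algK K) := by
  have hB : ∀ G : GenCircuit, ∀ g ∈ G.gates, ∀ s : ℕ → ℕ, (∀ i, s i ≤ K + 2) →
      FK K g s ≤ K + 2 := fun G g hg s hs => FK_le hg hs
  have h1 : PT A (fun G : GenCircuit => fin (FK K) G.gates G.nodes) :=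
    PT_fin (PT_FK K) (by omega) hB
  exact PT_mapTab h1 (valK K) fun G => iter_le (by omega) (hB G) G.nodes _

/-! ### Constant assignments, numbers of gates -/

theorem PT_constAssign (r : ℚ) : PT A (fun G : GenCircuit => List.replicate G.nodes r) :=
  PT.replicate (PT_nodes PT.id) (PBd_nodes (A := A) PT.id) (PT.const r)

theorem PT_count {P : Gate → Bool} (hP : PT A P) :
    PT A (fun G : GenCircuit => (G.gates.filter P).length) :=
  PT.length (PT.filter (f := fun _ g => P g) (PT_gates PT.id) (hP.comp PT.snd'))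

end Vale.Agent.P330
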