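import Vale.Agent.P330.H241.Alg

/-!
The values of the nodes for `ε ≥ 1/5`, and the proof that all gates are satisfied.
-/

namespace Vale.Agent.P330

/-- The value for a state. -/
def base (k : ℕ) : ℚ := if k = 0 then 1 / 5 else if k = 2 then 4 / 5 else 1 / 2

/-- The value of the output node of `g`. -/
def valG (s : ℕ → ℕ) (g : Gate) : ℚ :=
  match g with
  | .scale α a z => if s z = 2 then 3 / 5 else if s z = 0 ∧ s a = 2 ∧ 1 / 2 < α then 2 / 5
      else base (s z)
  | .add a b _ => if s a = 0 ∧ s b = 0 then 3 / 5 else 4 / 5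
  | .sub a b _ => if s a = 2 ∧ s b = 0 then 2 / 5 else 1 / 5
  | g => base (s g.out)

/-- The value of the node `i`. -/
def valN (gs : List Gate) (s : ℕ → ℕ) (i : ℕ) : ℚ :=
  match gateOf gs i with
  | none => 1 / 2
  | some g => valG s g

/-- The assignment computed from the states. -/
def assign (gs : List Gate) (n : ℕ) (L : List ℕ) : List ℚ :=
  (List.range n).map (valN gs (st L))

/-- The algorithm for `1/5 ≤ ε < 1/2`. -/
def algA (G : GenCircuit) : List ℚ := assign G.gates G.nodes (fin thr G.gates G.nodes)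

theorem base_mem (k : ℕ) : base k = 1 / 5 ∨ base k = 2 / 5 ∨ base k = 1 / 2 ∨ base k = 3 / 5 ∨
    base k = 4 / 5 := by
  unfold base
  split_ifs <;> simp

theorem valG_mem (s : ℕ → ℕ) (g : Gate) : valG s g = 1 / 5 ∨ valG s g = 2 / 5 ∨
    valG s g = 1 / 2 ∨ valG s g = 3 / 5 ∨ valG s g = 4 / 5 := by
  cases g <;> simp only [valG] <;> (try exact base_mem _) <;> split_ifs <;>
    first | exact base_mem _ | simp

theorem valN_mem (gs : List Gate) (s : ℕ → ℕ) (i : ℕ) : valN gs s i = 1 / 5 ∨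
    valN gs s i = 2 / 5 ∨ valN gs s i = 1 / 2 ∨ valN gs s i = 3 / 5 ∨ valN gs s i = 4 / 5 := by
  unfold valN
  rcases gateOf gs i with _ | g
  · simp
  · exact valG_mem s g

theorem assign_mem {gs : List Gate} {n : ℕ} {L : List ℕ} {r : ℚ} (h : r ∈ assign gs n L) :
    r = 1 / 5 ∨ r = 2 / 5 ∨ r = 1 / 2 ∨ r = 3 / 5 ∨ r = 4 / 5 := by
  unfold assign at h
  rw [List.mem_map] at h
  obtain ⟨i, _, rfl⟩ := h
  exact valN_mem _ _ _

theorem isAssignment_algA (G : GenCircuit) : IsAssignment G (algA G) := by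
  refine ⟨by simp [algA, assign], fun r hr => ?_⟩
  rcases assign_mem hr with h | h | h | h | h <;> rw [h] <;> norm_num

theorem val_algA {G : GenCircuit} {i : ℕ} (hi : i < G.nodes) :
    val (algA G) i = (valN G.gates (st (fin thr G.gates G.nodes)) i : ℚ) := by
  unfold val algA assign
  rw [List.getD_eq_getElem _ _ (by simpa using hi)]
  simp

/-- The final conditions. -/
def Cond (g : Gate) (s : ℕ → ℕ) : Prop :=
  match g with
  | .less a b z => (s a < s b → s z = 2) ∧ (s b < s a → s z = 0)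
  | g => s g.out = thr g s

theorem cond_fin (G : GenCircuit) : (∀ i, st (fin thr G.gates G.nodes) i ≤ 2) ∧
    ∀ g ∈ G.gates, Cond g (st (fin thr G.gates G.nodes)) := by
  obtain ⟨h1, h2⟩ := fin_inv (F := thr) (Q := OK) (B := fun k => k ≤ 2) (by norm_num)
    G.out_nodup G.out_lt
    (fun g _ s hs => thr_le hs) (fun g _ s s' hs hs' hr hne h => ok_raise hs hs' hr hne h)
    (fun g _ s s' hs hs' hr _ hz hne => ok_new hs hs' hr hz hne)
  refine ⟨h1, fun g hg => ?_⟩
  obtain ⟨h3, h4⟩ := h2 g hg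
  set s := st (fin thr G.gates G.nodes) with hs
  by_cases h5 : s g.out = 1
  · have h6 := h4 h5
    cases g with
    | less a b z =>
      simp only [Cond, thr] at h6 ⊢
      split_ifs at h6 with h7 h8
      all_goals first | (exfalso; omega) | exact ⟨fun h => absurd h h7, fun h => absurd h h8⟩
    | _ => simp only [Cond]; rw [h5, h6]
  · have h6 := h3 h5
    cases g with
    | less a b z =>
      simp only [Cond, OK] at h6 ⊢
      have ha := h1 a
      have hb := h1 b
      omega
    | _ => simp only [Cond, OK] at h6 ⊢; exact h6.symm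

/-- The possible values in the three states. -/
def Range (k : ℕ) (x : ℝ) : Prop :=
  (k = 0 ∧ (x = 1 / 5 ∨ x = 2 / 5)) ∨ (k = 1 ∧ x = 1 / 2) ∨ (k = 2 ∧ (x = 3 / 5 ∨ x = 4 / 5))

theorem range_base {k : ℕ} (hk : k ≤ 2) : Range k (base k : ℚ) := by
  unfold Range base
  interval_cases k <;> norm_num

theorem range_valG {g : Gate} {s : ℕ → ℕ} (hs : ∀ i, s i ≤ 2) (hc : Cond g s) :
    Range (s g.out) (valG s g : ℚ) := by
  cases g with
  | scale α a z =>
    simp only [Gate.out, valG]
    have hz := hs z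
    split_ifs with h1 h2
    · rw [h1]; unfold Range; norm_num
    · rw [h2.1]; unfold Range; norm_num
    · exact range_base hz
  | add a b z =>
    simp only [Cond, thr, Gate.out] at hc
    simp only [Gate.out, valG, hc]
    split_ifs <;> unfold Range <;> norm_num
  | sub a b z =>
    simp only [Cond, thr, Gate.out] at hc
    simp only [Gate.out, valG, hc]
    split_ifs <;> unfold Range <;> norm_num
  | _ => exact range_base (hs _)

theorem range_algA {G : GenCircuit} {i : ℕ} (hi : i < G.nodes) :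
    Range (st (fin thr G.gates G.nodes) i) (val (algA G) i) := by
  obtain ⟨h1, h2⟩ := cond_fin G
  rw [val_algA hi]
  unfold valN
  rcases h : gateOf G.gates i with _ | g
  · -- no gate: the state is `1`
    have h3 : st (fin thr G.gates G.nodes) i = 1 := fin_none hi h
    rw [h3]
    unfold Range
    norm_num
  · obtain ⟨h3, h4⟩ := gateOf_some h
    rw [← h4]
    exact range_valG h1 (h2 g h3)

theorem Range.hi {k : ℕ} {x : ℝ} (h : Range k x) (hx : 1 / 2 < x) : k = 2 := by
  rcases h with ⟨h6, h7⟩ | ⟨h6, h7⟩ | ⟨h6, h7⟩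
  · rcases h7 with h7 | h7 <;> rw [h7] at hx <;> norm_num at hx
  · rw [h7] at hx; norm_num at hx
  · exact h6

theorem Range.lo {k : ℕ} {x : ℝ} (h : Range k x) (hx : x < 1 / 2) : k = 0 := by
  rcases h with ⟨h6, h7⟩ | ⟨h6, h7⟩ | ⟨h6, h7⟩
  · exact h6
  · rw [h7] at hx; norm_num at hx
  · rcases h7 with h7 | h7 <;> rw [h7] at hx <;> norm_num at hx

theorem Range.five {k : ℕ} {x : ℝ} (h : Range k x) : (k = 0 ∧ x = 1 / 5) ∨ (k = 0 ∧ x = 2 / 5) ∨
    (k = 1 ∧ x = 1 / 2) ∨ (k = 2 ∧ x = 3 / 5) ∨ (k = 2 ∧ x = 4 / 5) := by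
  unfold Range at h
  tauto

theorem Range.le {k : ℕ} {x : ℝ} (h : Range k x) : k ≤ 2 := by
  rcases h with ⟨h6, _⟩ | ⟨h6, _⟩ | ⟨h6, _⟩ <;> omega

theorem base_zero : ((base 0 : ℚ) : ℝ) = 1 / 5 := by simp [base]
theorem base_one : ((base 1 : ℚ) : ℝ) = 1 / 2 := by simp [base]
theorem base_two : ((base 2 : ℚ) : ℝ) = 4 / 5 := by simp [base]

theorem abs_le_of {x ε : ℝ} (hε : 1 / 5 ≤ ε) (h1 : -(1 / 5) ≤ x) (h2 : x ≤ 1 / 5) : |x| ≤ ε :=
  abs_le.2 ⟨by linarith, by linarith⟩

/-- The value of the output of a gate. -/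
theorem val_out {G : GenCircuit} {g : Gate} (hg : g ∈ G.gates) :
    val (algA G) g.out = (valG (st (fin thr G.gates G.nodes)) g : ℚ) := by
  rw [val_algA (G.out_lt g hg)]
  unfold valN
  rw [gateOf_out G.out_nodup hg]

theorem sat_const {ε : ℝ} (h1 : 1 / 5 ≤ ε) {α : ℚ} (h0 : 0 ≤ α) (h0' : α ≤ 1) {k : ℕ}
    (c : k = if α ≤ 2 / 5 then 0 else if 3 / 5 ≤ α then 2 else 1) :
    |((base k : ℚ) : ℝ) - α| ≤ ε := by
  have hα0 : (0 : ℝ) ≤ α := by exact_mod_cast h0
  have hα1 : (α : ℝ) ≤ 1 := by exact_mod_cast h0'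
  by_cases h3 : α ≤ 2 / 5
  · rw [if_pos h3] at c
    have h4 : ((α : ℚ) : ℝ) ≤ ((2 / 5 : ℚ) : ℝ) := by exact_mod_cast h3
    push_cast at h4
    rw [c, base_zero]
    apply abs_le_of h1 <;> linarith
  · rw [if_neg h3] at c
    have h4 : ((2 / 5 : ℚ) : ℝ) < ((α : ℚ) : ℝ) := by exact_mod_cast not_le.1 h3
    push_cast at h4
    by_cases h5 : 3 / 5 ≤ α
    · rw [if_pos h5] at c
      have h6 : ((3 / 5 : ℚ) : ℝ) ≤ ((α : ℚ) : ℝ) := by exact_mod_cast h5
      push_cast at h6
      rw [c, base_two]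
      apply abs_le_of h1 <;> linarith
    · rw [if_neg h5] at c
      have h6 : ((α : ℚ) : ℝ) < ((3 / 5 : ℚ) : ℝ) := by exact_mod_cast not_le.1 h5
      push_cast at h6
      rw [c, base_one]
      apply abs_le_of h1 <;> linarith

theorem sat_scale {ε : ℝ} (h1 : 1 / 5 ≤ ε) {α : ℚ} (h0 : 0 ≤ α) (h0' : α ≤ 1) {s : ℕ → ℕ}
    {a z : ℕ} (c : s z = if α < 2 / 3 then 0 else s a) {y : ℝ} (ha : Range (s a) y) :
    |((valG s (.scale α a z) : ℚ) : ℝ) - α * y| ≤ ε := by
  have hα0 : (0 : ℝ) ≤ α := by exact_mod_cast h0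
  have hα1 : (α : ℝ) ≤ 1 := by exact_mod_cast h0'
  simp only [valG]
  by_cases h3 : α < 2 / 3
  · rw [if_pos h3] at c
    have h3' : ((α : ℚ) : ℝ) < ((2 / 3 : ℚ) : ℝ) := by exact_mod_cast h3
    push_cast at h3'
    have hz2 : ¬ s z = 2 := by omega
    rw [if_neg hz2]
    by_cases h4 : s a = 2 ∧ 1 / 2 < α
    · rw [if_pos ⟨c, h4.1, h4.2⟩]
      have h5 : ((1 / 2 : ℚ) : ℝ) < (α : ℝ) := by exact_mod_cast h4.2
      push_cast at h5
      rcases ha with ⟨h6, _⟩ | ⟨h6, _⟩ | ⟨_, h7 | h7⟩
      · omega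
      · omega
      · rw [h7]; push_cast
        apply abs_le_of h1 <;> linarith
      · rw [h7]; push_cast
        apply abs_le_of h1 <;> linarith
    · rw [if_neg (fun h => h4 h.2), c, base_zero]
      rcases ha with ⟨_, h7 | h7⟩ | ⟨_, h7⟩ | ⟨h6, h7⟩
      · rw [h7]
        apply abs_le_of h1 <;> linarith
      · rw [h7]
        apply abs_le_of h1 <;> linarith
      · rw [h7]
        apply abs_le_of h1 <;> linarith
      · have h9 : ¬ (1 / 2 < α) := fun h => h4 ⟨h6, h⟩
        have h8 : ((α : ℚ) : ℝ) ≤ ((1 / 2 : ℚ) : ℝ) := by exact_mod_cast not_lt.1 h9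
        push_cast at h8
        rcases h7 with h7 | h7
        · rw [h7]
          apply abs_le_of h1 <;> linarith
        · rw [h7]
          apply abs_le_of h1 <;> linarith
  · rw [if_neg h3] at c
    have h3' : ((2 / 3 : ℚ) : ℝ) ≤ (α : ℝ) := by exact_mod_cast not_lt.1 h3
    push_cast at h3'
    rcases ha with ⟨h6, h7⟩ | ⟨h6, h7⟩ | ⟨h6, h7⟩
    · rw [if_neg (by omega), if_neg (by omega), c, h6, base_zero]
      rcases h7 with h7 | h7 <;> rw [h7] <;> apply abs_le_of h1 <;> linarith
    · rw [if_neg (by omega), if_neg (by omega), c, h6, base_one, h7]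
      apply abs_le_of h1 <;> linarith
    · rw [if_pos (by omega)]
      push_cast
      rcases h7 with h7 | h7 <;> rw [h7] <;> apply abs_le_of h1 <;> linarith

theorem sat_copy {ε : ℝ} (h1 : 1 / 5 ≤ ε) {k : ℕ} {y : ℝ} (ha : Range k y) :
    |((base k : ℚ) : ℝ) - y| ≤ ε := by
  rcases ha with ⟨h6, h7⟩ | ⟨h6, h7⟩ | ⟨h6, h7⟩
  · rw [h6, base_zero]
    rcases h7 with h7 | h7 <;> rw [h7] <;> apply abs_le_of h1 <;> norm_num
  · rw [h6, base_one, h7]
    apply abs_le_of h1 <;> norm_num
  · rw [h6, base_two]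
    rcases h7 with h7 | h7 <;> rw [h7] <;> apply abs_le_of h1 <;> norm_num

theorem sat_add {ε : ℝ} (h1 : 1 / 5 ≤ ε) {s : ℕ → ℕ} {a b z : ℕ} {x y : ℝ}
    (ha : Range (s a) x) (hb : Range (s b) y) :
    |((valG s (.add a b z) : ℚ) : ℝ) - min (x + y) 1| ≤ ε := by
  simp only [valG]
  rcases ha.five with ⟨h6, h7⟩ | ⟨h6, h7⟩ | ⟨h6, h7⟩ | ⟨h6, h7⟩ | ⟨h6, h7⟩ <;>
    rcases hb.five with ⟨h8, h9⟩ | ⟨h8, h9⟩ | ⟨h8, h9⟩ | ⟨h8, h9⟩ | ⟨h8, h9⟩ <;>
    rw [h6, h8, h7, h9] <;> apply abs_le_of h1 <;> norm_num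

theorem sat_sub {ε : ℝ} (h1 : 1 / 5 ≤ ε) {s : ℕ → ℕ} {a b z : ℕ} {x y : ℝ}
    (ha : Range (s a) x) (hb : Range (s b) y) :
    |((valG s (.sub a b z) : ℚ) : ℝ) - max (x - y) 0| ≤ ε := by
  simp only [valG]
  rcases ha.five with ⟨h6, h7⟩ | ⟨h6, h7⟩ | ⟨h6, h7⟩ | ⟨h6, h7⟩ | ⟨h6, h7⟩ <;>
    rcases hb.five with ⟨h8, h9⟩ | ⟨h8, h9⟩ | ⟨h8, h9⟩ | ⟨h8, h9⟩ | ⟨h8, h9⟩ <;>
    rw [h6, h8, h7, h9] <;> apply abs_le_of h1 <;> norm_num

theorem lt_of_less {ε : ℝ} (h1 : 1 / 5 ≤ ε) {j k : ℕ} {x y : ℝ}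
    (ha : Range j x) (hb : Range k y) (h : x + ε < y) : j < k := by
  by_contra h4
  rcases ha.five with ⟨h6, h7⟩ | ⟨h6, h7⟩ | ⟨h6, h7⟩ | ⟨h6, h7⟩ | ⟨h6, h7⟩ <;>
    rcases hb.five with ⟨h8, h9⟩ | ⟨h8, h9⟩ | ⟨h8, h9⟩ | ⟨h8, h9⟩ | ⟨h8, h9⟩ <;>
    (try omega) <;> rw [h7, h9] at h <;> linarith

theorem sat_algA {ε : ℝ} (h1 : 1 / 5 ≤ ε) (h2 : ε < 1 / 2) (G : GenCircuit) :
    ∀ g ∈ G.gates, g.Sat ε (val (algA G)) := by
  intro g hg
  obtain ⟨c1, c2⟩ := cond_fin G
  have c := c2 g hg
  have hv := val_out hg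
  have hins : ∀ a ∈ g.ins, Range (st (fin thr G.gates G.nodes) a) (val (algA G) a) :=
    fun a ha => range_algA (G.ins_lt g hg a ha)
  have hpar := G.params_mem g hg
  set s := st (fin thr G.gates G.nodes) with hs
  set x := val (algA G) with hx
  cases g with
  | const α z =>
    have hα : (0 : ℚ) ≤ α ∧ α ≤ 1 := hpar α (by simp [Gate.params])
    simp only [Cond, thr, Gate.out] at c
    simp only [valG, Gate.out] at hv
    simp only [Gate.Sat]
    rw [hv]
    exact sat_const h1 hα.1 hα.2 c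
  | scale α a z =>
    have hα : (0 : ℚ) ≤ α ∧ α ≤ 1 := hpar α (by simp [Gate.params])
    have ha := hins a (by simp [Gate.ins])
    simp only [Cond, thr, Gate.out] at c
    simp only [Gate.Sat]
    simp only [Gate.out] at hv
    rw [hv]
    exact sat_scale h1 hα.1 hα.2 c ha
  | copy a z =>
    have ha := hins a (by simp [Gate.ins])
    simp only [Cond, thr, Gate.out] at c
    simp only [Gate.Sat]
    simp only [Gate.out, valG] at hv
    rw [hv, c]
    exact sat_copy h1 ha
  | add a b z =>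
    have ha := hins a (by simp [Gate.ins])
    have hb := hins b (by simp [Gate.ins])
    simp only [Gate.Sat]
    simp only [Gate.out] at hv
    rw [hv]
    exact sat_add h1 ha hb
  | sub a b z =>
    have ha := hins a (by simp [Gate.ins])
    have hb := hins b (by simp [Gate.ins])
    simp only [Gate.Sat]
    simp only [Gate.out] at hv
    rw [hv]
    exact sat_sub h1 ha hb
  | less a b z =>
    have ha := hins a (by simp [Gate.ins])
    have hb := hins b (by simp [Gate.ins])
    simp only [Cond] at c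
    simp only [Gate.Sat]
    simp only [Gate.out, valG] at hv
    rw [hv]
    obtain ⟨ca, cb⟩ := c
    constructor
    · intro h
      rw [ca (lt_of_less h1 ha hb (by linarith)), base_two]
      linarith
    · intro h
      rw [cb (lt_of_less h1 hb ha (by linarith)), base_zero]
      linarith
  | not a z =>
    have ha := hins a (by simp [Gate.ins])
    simp only [Cond, thr, Gate.out] at c
    simp only [Gate.Sat]
    simp only [Gate.out, valG] at hv
    rw [hv, c]
    constructor
    · intro h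
      rw [ha.lo (by linarith), base_two]
      linarith
    · intro h
      rw [ha.hi (by linarith), base_zero]
      linarith
  | or a b z =>
    have ha := hins a (by simp [Gate.ins])
    have hb := hins b (by simp [Gate.ins])
    simp only [Cond, thr, Gate.out] at c
    simp only [Gate.Sat]
    simp only [Gate.out, valG] at hv
    have ha2 := ha.le
    have hb2 := hb.le
    rw [hv, c]
    constructor
    · intro h
      have h3 : max (s a) (s b) = 2 := by
        rcases h with h | h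
        · have := ha.hi (by linarith); omega
        · have := hb.hi (by linarith); omega
      rw [h3, base_two]
      linarith
    · rintro ⟨h, h'⟩
      have h3 : max (s a) (s b) = 0 := by
        have := ha.lo (by linarith)
        have := hb.lo (by linarith)
        omega
      rw [h3, base_zero]
      linarith
  | and a b z =>
    have ha := hins a (by simp [Gate.ins])
    have hb := hins b (by simp [Gate.ins])
    simp only [Cond, thr, Gate.out] at c
    simp only [Gate.Sat]
    simp only [Gate.out, valG] at hv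
    have ha2 := ha.le
    have hb2 := hb.le
    rw [hv, c]
    constructor
    · rintro ⟨h, h'⟩
      have h3 : min (s a) (s b) = 2 := by
        have := ha.hi (by linarith)
        have := hb.hi (by linarith)
        omega
      rw [h3, base_two]
      linarith
    · intro h
      have h3 : min (s a) (s b) = 0 := by
        rcases h with h | h
        · have := ha.lo (by linarith); omega
        · have := hb.lo (by linarith); omega
      rw [h3, base_zero]
      linarith

/-- For `1/2 ≤ ε < 1` the constant assignment `1/2` satisfies all gates. -/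
theorem sat_half {ε : ℝ} (h1 : 1 / 2 ≤ ε) (G : GenCircuit) :
    ∀ g ∈ G.gates, g.Sat ε (val (List.replicate G.nodes (1 / 2))) := by
  have hv : ∀ i < G.nodes, val (List.replicate G.nodes (1 / 2)) i = 1 / 2 := by
    intro i hi
    unfold val
    rw [List.getD_eq_getElem _ _ (by simpa using hi)]
    simp
  intro g hg
  have ho := hv _ (G.out_lt g hg)
  have hi : ∀ a ∈ g.ins, val (List.replicate G.nodes (1 / 2)) a = 1 / 2 :=
    fun a ha => hv a (G.ins_lt g hg a ha)
  have hpar := G.params_mem g hg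
  cases g with
  | const α z =>
    have hα : (0 : ℚ) ≤ α ∧ α ≤ 1 := hpar α (by simp [Gate.params])
    have hα0 : (0 : ℝ) ≤ α := by exact_mod_cast hα.1
    have hα1 : (α : ℝ) ≤ 1 := by exact_mod_cast hα.2
    simp only [Gate.Sat, Gate.out] at ho ⊢
    rw [ho, abs_le]
    constructor <;> linarith
  | scale α a z =>
    have hα : (0 : ℚ) ≤ α ∧ α ≤ 1 := hpar α (by simp [Gate.params])
    have hα0 : (0 : ℝ) ≤ α := by exact_mod_cast hα.1
    have hα1 : (α : ℝ) ≤ 1 := by exact_mod_cast hα.2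
    have ha := hi a (by simp [Gate.ins])
    simp only [Gate.Sat, Gate.out] at ho ⊢
    rw [ho, ha, abs_le]
    constructor <;> linarith
  | copy a z =>
    have ha := hi a (by simp [Gate.ins])
    simp only [Gate.Sat, Gate.out] at ho ⊢
    rw [ho, ha, abs_le]
    constructor <;> linarith
  | add a b z =>
    have ha := hi a (by simp [Gate.ins])
    have hb := hi b (by simp [Gate.ins])
    simp only [Gate.Sat, Gate.out] at ho ⊢
    rw [ho, ha, hb, abs_le]
    constructor <;> norm_num <;> linarith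
  | sub a b z =>
    have ha := hi a (by simp [Gate.ins])
    have hb := hi b (by simp [Gate.ins])
    simp only [Gate.Sat, Gate.out] at ho ⊢
    rw [ho, ha, hb, abs_le]
    constructor <;> norm_num <;> linarith
  | less a b z =>
    have ha := hi a (by simp [Gate.ins])
    have hb := hi b (by simp [Gate.ins])
    simp only [Gate.Sat, Gate.out] at ho ⊢
    rw [ho, ha, hb]
    constructor <;> intro h <;> linarith
  | not a z =>
    have ha := hi a (by simp [Gate.ins])
    simp only [Gate.Sat, Gate.out] at ho ⊢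
    rw [ho, ha]
    constructor <;> intro h <;> linarith
  | or a b z =>
    simp only [Gate.Sat, Gate.out] at ho ⊢
    rw [ho]
    constructor <;> intro h <;> linarith
  | and a b z =>
    simp only [Gate.Sat, Gate.out] at ho ⊢
    rw [ho]
    constructor <;> intro h <;> linarith

end Vale.Agent.P330
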